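import Vale.Agent.P054.MathlibUsed
import Vale.Agent.P054.Bdl.B4
attribute [-instance] ProperSMul.toContinuousSMul IsTopologicalTorsor.toContinuousSMul IdemSemiring.toCanonicallyOrderedAdd IdemSemiring.toMulLeftMono IdemSemiring.toMulRightMono AddQuantale.instAddLeftMono AddQuantale.instAddRightMono Quantale.instMulLeftMono Quantale.instMulRightMono FiniteDimensional.rclike_to_real IsScalarTower.complexToReal FiniteDimensional.complexToReal

set_option linter.all false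
set_option autoImplicit false

open Finset Vale.Agent.P054K

namespace Vale.Agent.P054M

/-- number of points of `P` on the bisector of the pair `π` -/
noncomputable def pc {d : ℕ} (P : Finset (EuclideanSpace ℝ (Fin d)))
    (π : EuclideanSpace ℝ (Fin d) × EuclideanSpace ℝ (Fin d)) : ℕ :=
  open scoped Classical in (P.filter (fun z => dualVec π ∈ hyp z)).card

/-- number of ordered pairs of distinct points of `P` with the same bisector as `π` -/
noncomputable def mc {d : ℕ} (P : Finset (EuclideanSpace ℝ (Fin d)))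
    (π : EuclideanSpace ℝ (Fin d) × EuclideanSpace ℝ (Fin d)) : ℕ :=
  open scoped Classical in
  (P.offDiag.filter (fun σ => dualVec σ ∈ Submodule.span ℝ {dualVec π})).card

/-- the dual lines of the `(M, m)`-mirrors through `p` -/
noncomputable def mir {d : ℕ} (P : Finset (EuclideanSpace ℝ (Fin d))) (M m : ℕ)
    (p : EuclideanSpace ℝ (Fin d)) : Finset (Submodule ℝ (EuclideanSpace ℝ (Fin d) × ℝ)) :=
  open scoped Classical in
  (P.offDiag.filter (fun π => dualVec π ∈ hyp p ∧ M < pc P π ∧ m < mc P π)).image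
    (fun π => Submodule.span ℝ {dualVec π})

/-- the key inequality for sets with few rich mirrors, as a property of the constants -/
def KeyRM (d : ℕ) (K : ℝ) (c : ℕ) : Prop :=
  open scoped Classical in
  ∀ (P : Finset (EuclideanSpace ℝ (Fin d))) (t t1 l I : ℕ) (N g : ℝ) (M m b : ℕ), t1 = t + 1 →
    (∀ p ∈ P, (P.image (dist p)).card ≤ t + 1) → 1 ≤ N → 2 * Real.log N + 1 ≤ l →
    2 ^ (I + 1) ≤ l → 16 * (2 * Real.log N + 1) * ((t1:ℝ) + 2) ≤ (l:ℝ) ^ I →
    2 * (P.card : ℝ) ^ 2 ≤ N → (P.card : ℝ) * (t1:ℝ) ≤ N →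
    20 * (Real.log (2 ^ 14 * N * (l:ℝ) ^ 2 * (t1:ℝ) + 3) + 1) ≤ l →
    (∀ j < d, PinnedBy j t (l * (t1:ℝ) ^ j)) → PinnedBy (d - 1) t g →
    1 ≤ M → 1 ≤ m → 1 ≤ b →
    2 * (P.filter (fun p => b < (mir P M m p).card)).card ≤ P.card →
    (P.card : ℝ) ≤ 2 * g ∨ (P.card : ℝ) ≤ K * (l:ℝ) ^ c * t1 ∨
    (P.card : ℝ) ^ 2 ≤ K * (l:ℝ) ^ c * (t1:ℝ) ^ d ∨
    (P.card : ℝ) ^ (3 * d - 2) ≤ K * (l:ℝ) ^ c * ((t1:ℝ) ^ (d ^ 2) * (m:ℝ) ^ (d - 1)) ∨
    (P.card : ℝ) ^ d ≤ K * (l:ℝ) ^ c * ((t1:ℝ) ^ d * (M:ℝ) ^ (d - 1)) ∨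
    (P.card : ℝ) ≤ K * (l:ℝ) ^ c * (t1 * (b:ℝ) ^ (d - 1))

end Vale.Agent.P054M
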