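import Vale.Agent.P054.MathlibUsed
import Vale.Agent.P054.H449.RM.Defs
attribute [-instance] ProperSMul.toContinuousSMul IsTopologicalTorsor.toContinuousSMul IdemSemiring.toCanonicallyOrderedAdd IdemSemiring.toMulLeftMono IdemSemiring.toMulRightMono AddQuantale.instAddLeftMono AddQuantale.instAddRightMono Quantale.instMulLeftMono Quantale.instMulRightMono FiniteDimensional.rclike_to_real IsScalarTower.complexToReal FiniteDimensional.complexToReal

set_option linter.all false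
set_option autoImplicit false

open Finset Vale.Agent.P054K

namespace Vale.Agent.P054M

open scoped Classical in
theorem select2 {α ι β V : Type} [AddCommGroup V] [Module ℝ V] [FiniteDimensional ℝ V]
    {Q : Finset α} {S : Finset ι} {Rg : ι → α → Bool}
    {s s' x R : ℕ} {g' : Fin s' → ι} {g : Fin R → Fin s → ι} {F : Fin R → Finset (Finset α)}
    (h : Rounds Q S Rg s s' x R g' g F) (hR : 1 ≤ R) (hs : 1 ≤ s) (hQ : Q.Nonempty)
    (B : Finset β) (ψ : α → V) (Hf : β → Submodule ℝ V) (e : ℕ → ℕ) (κ FF : ℝ) (D : ℕ)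
    (hD : Module.finrank ℝ V ≤ D) (hκ : 1 ≤ κ) (hFF : 1 ≤ FF)
    (hψ : ∀ q ∈ Q, ∀ q' ∈ Q, ψ q = ψ q' → q = q')
    (hval : ∀ p ∈ B, (R * Q.card : ℝ) / 8 ≤ mass (idx F) (fun i => ψ i.2.1 - ψ i.2.2) (Hf p))
    (hpat : open scoped Classical in
      ∀ A : Submodule ℝ V, A ≠ ⊥ → (∃ p ∈ B, A ≤ Hf p) → ∀ τ, ∀ v ∈ Q.image (fun q => A.mkQ (ψ q)),
      (((Q.filter (fun q => A.mkQ (ψ q) = v)).image
        (fun q => ((fun k => Rg (g τ k) q), (fun k => Rg (g' k) q)))).card : ℝ)
        ≤ κ * (s:ℝ) ^ (e (Module.finrank ℝ A)))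
    (p : β) (hp : p ∈ B) (J : Finset (Fin R × (α × α))) (hJ : J ⊆ idx F)
    (hbad : open scoped Classical in mass (idx F \ J) (fun i => ψ i.2.1 - ψ i.2.2) (Hf p) ≤
      R * Q.card / (2048 * κ)) :
    ∃ (j w : ℕ) (A : Submodule ℝ V), A ≤ Hf p ∧ Module.finrank ℝ A = w ∧ 1 ≤ w ∧
      (2:ℝ) ^ j ≤ Q.card ∧
      (R * Q.card * 2 ^ j / (1024 * (2 * κ))) * (FF ^ w / FF ^ D) ≤
        mass J (fun i => ψ i.2.1 - ψ i.2.2) A ∧
      (∀ B' : Submodule ℝ V, B' < A → FF * mass J (fun i => ψ i.2.1 - ψ i.2.2) B' ≤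
        mass J (fun i => ψ i.2.1 - ψ i.2.2) A) ∧
      (∀ Φ ⊆ B, p ∈ Φ → ∀ A' : Submodule ℝ V, A' = (⨅ p' ∈ Φ, Hf p') → A' ≠ ⊥ →
        (Q.card : ℝ) ≤ 2 * 2 ^ j * ((ncos Q ψ A' : ℝ) * (s:ℝ) ^ (e (Module.finrank ℝ A')))) := by
  classical
  set v : Fin R × (α × α) → V := fun i => ψ i.2.1 - ψ i.2.2 with hv
  have hn1 : (1:ℝ) ≤ Q.card := by exact_mod_cast hQ.card_pos
  have hs1 : (1:ℝ) ≤ s := by exact_mod_cast hs
  have hR1 : (1:ℝ) ≤ R := by exact_mod_cast hR
  set n : ℝ := (Q.card : ℝ) with hn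
  set ϑ : Submodule ℝ V → ℝ := fun A =>
    (ncos Q ψ A : ℝ) * (s:ℝ) ^ (e (Module.finrank ℝ A)) / n with hϑ
  have hncos : ∀ A, 1 ≤ ncos Q ψ A := by
    intro A
    unfold ncos
    exact (hQ.image _).card_pos
  have hϑ1 : ∀ A, 1 / n ≤ ϑ A := by
    intro A
    simp only [hϑ]
    apply div_le_div_of_nonneg_right _ (by linarith only [hn1])
    have h1 : (1:ℝ) ≤ ncos Q ψ A := by exact_mod_cast hncos A
    have h2 : (1:ℝ) ≤ (s:ℝ) ^ (e (Module.finrank ℝ A)) := one_le_pow₀ hs1
    nlinarith only [h1, h2]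
  set 𝒞 : Finset (Submodule ℝ V) := ((B.powerset.filter (fun Φ => p ∈ Φ)).image
    (fun Φ => ⨅ p' ∈ Φ, Hf p')).filter (fun A => A ≠ ⊥) with h𝒞
  set vals : Finset ℝ := insert 1 (𝒞.image ϑ) with hvals
  have hvne : vals.Nonempty := ⟨1, mem_insert_self _ _⟩
  set θ : ℝ := vals.min' hvne with hθ
  have hθmem : θ ∈ vals := Finset.min'_mem _ _
  have hθ1 : θ ≤ 1 := Finset.min'_le _ _ (mem_insert_self _ _)
  have hθ𝒞 : ∀ A ∈ 𝒞, θ ≤ ϑ A := fun A hA =>
    Finset.min'_le _ _ (mem_insert_of_mem (mem_image_of_mem ϑ hA))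
  have hθn : 1 / n ≤ θ := by
    rw [hvals, mem_insert] at hθmem
    rcases hθmem with h1 | h1
    · rw [h1]
      rw [div_le_one (by linarith only [hn1])]
      exact hn1
    · obtain ⟨A, _, hA⟩ := mem_image.mp h1
      rw [← hA]; exact hϑ1 A
  have hθ0 : 0 < θ := lt_of_lt_of_le (by (clear * - hQ; positivity)) hθn
  obtain ⟨j, hj1, hj2⟩ := exists_nat_pow_near_of_lt_one hθ0 hθ1 (show (0:ℝ) < 1 / 2 by norm_num)
    (by norm_num)
  have hpow : ∀ k : ℕ, (1 / 2 : ℝ) ^ k * 2 ^ k = 1 := by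
    intro k
    rw [← mul_pow]; norm_num
  have h2j : (0:ℝ) < 2 ^ j := by positivity
  have hj3 : θ * 2 ^ j ≤ 1 := by
    have := mul_le_mul_of_nonneg_right hj2 h2j.le
    rwa [hpow j] at this
  have hj4 : 1 < θ * (2 * 2 ^ j) := by
    have h1 : (0:ℝ) < 2 * 2 ^ j := by positivity
    have h2 := mul_lt_mul_of_pos_right hj1 h1
    have h3 : (1 / 2 : ℝ) ^ (j + 1) * (2 * 2 ^ j) = 1 := by
      rw [← pow_succ' 2 j]
      exact hpow (j + 1)
    rwa [h3] at h2
  -- the rich subspace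
  have hrich : ∃ A₀ : Submodule ℝ V, A₀ ≤ Hf p ∧ R * n * 2 ^ j / (1024 * κ) ≤ mass (idx F) v A₀ := by
    have hdef : 2 ^ j ≤ 128 * κ → ∃ A₀ : Submodule ℝ V, A₀ ≤ Hf p ∧
        R * n * 2 ^ j / (1024 * κ) ≤ mass (idx F) v A₀ := by
      intro h1
      refine ⟨Hf p, le_rfl, le_trans ?_ (hval p hp)⟩
      rw [div_le_div_iff₀ (by positivity) (by norm_num)]
      have : R * n * 2 ^ j ≤ R * n * (128 * κ) := mul_le_mul_of_nonneg_left h1 (by (clear * - hR hQ; positivity))
      linarith only [this]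
    rw [hvals, mem_insert] at hθmem
    rcases hθmem with h1 | h1
    · apply hdef
      rw [h1, one_mul] at hj3
      linarith only [hκ, hj3]
    · obtain ⟨A, hA, hAθ⟩ := mem_image.mp h1
      have hA' := hA
      rw [h𝒞, mem_filter, mem_image] at hA'
      obtain ⟨⟨Φ, hΦ, hΦA⟩, hAne⟩ := hA'
      rw [mem_filter, mem_powerset] at hΦ
      have hAp : A ≤ Hf p := by
        rw [← hΦA]
        exact iInf₂_le p hΦ.2
      set Kp : ℝ := κ * (s:ℝ) ^ (e (Module.finrank ℝ A)) with hKp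
      have hKp0 : 0 < Kp := by positivity
      have hθA : ncos Q ψ A * (s:ℝ) ^ (e (Module.finrank ℝ A)) = θ * n := by
        rw [← hAθ]
        simp only [hϑ]
        field_simp
      by_cases hbig : 128 * Kp * (ncos Q ψ A : ℝ) ≤ n
      · refine ⟨A, hAp, ?_⟩
        have h2 := label_pairs h (fun q => A.mkQ (ψ q)) Kp hKp0 (fun τ v' hv' =>
          hpat A hAne ⟨p, hp, hAp⟩ τ v' hv') hbig
        have h3 : mass (idx F) v A = ∑ τ, ∑ X ∈ F τ,
            ((X.offDiag.filter (fun π => A.mkQ (ψ π.1) = A.mkQ (ψ π.2))).card : ℝ) := by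
          rw [← idx_filter h]
          unfold mass
          congr 2
          apply Finset.filter_congr
          intro i _
          simp only [hv]
          rw [Submodule.mkQ_apply, Submodule.mkQ_apply, Submodule.Quotient.eq]
        rw [← h3] at h2
        have h4 : 128 * Kp * (((Q.image (fun q => A.mkQ (ψ q))).card : ℕ) : ℝ) = 128 * κ * (θ * n) := by
          rw [← hθA, hKp]
          unfold ncos
          ring
        rw [h4] at h2
        -- R n n ≤ 128 κ θ n mass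
        have h5 : R * n ≤ 128 * κ * θ * mass (idx F) v A := by
          have h6 : (R * n) * n ≤ (128 * κ * θ * mass (idx F) v A) * n := by linarith only [h2]
          exact le_of_mul_le_mul_right h6 (by linarith only [hn1])
        rw [div_le_iff₀ (by positivity)]
        have hm0 := mass_nonneg (idx F) v A
        calc R * n * 2 ^ j ≤ (128 * κ * θ * mass (idx F) v A) * 2 ^ j :=
              mul_le_mul_of_nonneg_right h5 h2j.le
          _ = (128 * κ * mass (idx F) v A) * (θ * 2 ^ j) := by ring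
          _ ≤ (128 * κ * mass (idx F) v A) * 1 := mul_le_mul_of_nonneg_left hj3 (by (clear * - hκ hm0; positivity))
          _ ≤ mass (idx F) v A * (1024 * κ) := by linarith only [mul_nonneg hm0 (by linarith only [hκ] : (0:ℝ) ≤ κ)]
      · apply hdef
        push Not at hbig
        have h2 : n < 128 * κ * (θ * n) := by
          rw [← hθA]
          calc n < 128 * Kp * (ncos Q ψ A : ℝ) := hbig
            _ = _ := by rw [hKp]; ring
        have h3 : 1 < 128 * κ * θ := by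
          have h4 : 1 * n < (128 * κ * θ) * n := by linarith only [h2]
          exact lt_of_mul_lt_mul_right h4 (by linarith only [hn1])
        by_contra hcon
        push Not at hcon
        have h4 : 128 * κ * θ ≤ 2 ^ j * θ := mul_le_mul_of_nonneg_right hcon.le hθ0.le
        linarith only [hj3, h3, h4]
  obtain ⟨A₀, hA₀, hA₀m'⟩ := hrich
  have hA₀m : R * n * 2 ^ j / (1024 * (2 * κ)) ≤ mass J v A₀ := by
    have h1 : mass (idx F) v A₀ ≤ mass J v A₀ + mass (idx F \ J) v (Hf p) := by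
      refine le_trans ?_ (add_le_add le_rfl (mass_mono (Finset.Subset.refl _) v hA₀))
      unfold mass
      have h2 : (idx F).filter (fun i => v i ∈ A₀) ⊆
          J.filter (fun i => v i ∈ A₀) ∪ (idx F \ J).filter (fun i => v i ∈ A₀) := by
        intro i hi
        rw [mem_filter] at hi
        rw [mem_union, mem_filter, mem_filter, mem_sdiff]
        by_cases h3 : i ∈ J
        · exact Or.inl ⟨h3, hi.2⟩
        · exact Or.inr ⟨⟨hi.1, h3⟩, hi.2⟩
      have h3 := (card_le_card h2).trans (card_union_le _ _)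
      exact_mod_cast h3
    have h4 : R * n / (2048 * κ) ≤ R * n * 2 ^ j / (2048 * κ) := by
      apply div_le_div_of_nonneg_right _ (by positivity)
      exact le_mul_of_one_le_right (by positivity) (one_le_pow₀ (by norm_num))
    have h5 : R * n * 2 ^ j / (1024 * κ) = R * n * 2 ^ j / (2048 * κ) + R * n * 2 ^ j / (2048 * κ) := by
      field_simp
      norm_num
    have h6 : R * n * 2 ^ j / (1024 * (2 * κ)) = R * n * 2 ^ j / (2048 * κ) := by
      congr 1
      ring
    rw [h6]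
    have h7 : mass (idx F \ J) v (Hf p) ≤ R * n / (2048 * κ) := hbad
    linarith only [h1, h4, h5, h7, hA₀m']
  set Θ : ℕ → ℝ := fun w => (R * n * 2 ^ j / (1024 * (2 * κ))) * (FF ^ w / FF ^ D) with hΘ
  have hΘpos : ∀ w, 0 < Θ w := fun w => by simp only [hΘ]; (clear * - hR hQ hκ hFF; positivity)
  have hΘsucc : ∀ w, FF * Θ w = Θ (w + 1) := by
    intro w; simp only [hΘ]; rw [pow_succ]; ring
  have hΘmono : ∀ w w', w ≤ w' → Θ w ≤ Θ w' := by
    intro w w' hww
    simp only [hΘ]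
    apply mul_le_mul_of_nonneg_left _ (by (clear * - hR hQ hκ; positivity))
    apply div_le_div_of_nonneg_right _ (by positivity)
    exact pow_le_pow_right₀ hFF hww
  have hd0 : Module.finrank ℝ A₀ ≤ D := (Submodule.finrank_le A₀).trans hD
  obtain ⟨w, _, A, hA, hAw, hAm, hAmin⟩ := exists_minimal_rich J v A₀ (Module.finrank ℝ A₀) rfl Θ
    (by
      refine le_trans ((hΘmono _ _ hd0).trans ?_) hA₀m
      simp only [hΘ]
      rw [div_self (by positivity), mul_one])
  refine ⟨j, w, A, hA.trans hA₀, hAw, ?_, ?_, hAm, ?_, ?_⟩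
  · by_contra hw
    have hw0 : Module.finrank ℝ A = 0 := by omega
    have h1 := mass_of_finrank_zero J v (by
      intro i hi
      have hi := hJ hi
      rw [mem_idx] at hi
      obtain ⟨X, hX, hi⟩ := hi
      rw [mem_offDiag] at hi
      simp only [hv]
      rw [sub_ne_zero]
      intro h2
      exact hi.2.2 (hψ _ (h.sub _ X hX hi.1) _ (h.sub _ X hX hi.2.1) h2)) A hw0
    rw [h1] at hAm
    exact absurd (hΘpos w) (not_lt.mpr hAm)
  · have h1 : 2 ^ j * (1 / n) ≤ 2 ^ j * θ := mul_le_mul_of_nonneg_left hθn h2j.le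
    have h2 : 2 ^ j * (1 / n) ≤ 1 := by linarith only [hj3, h1]
    rw [mul_one_div, div_le_one (by linarith only [hn1])] at h2
    exact h2
  · intro B' hB'
    obtain ⟨h1, h2⟩ := hAmin B' hB'
    calc FF * mass J v B' ≤ FF * Θ (Module.finrank ℝ B') :=
          mul_le_mul_of_nonneg_left h2.le (by linarith only [hFF])
      _ = Θ (Module.finrank ℝ B' + 1) := hΘsucc _
      _ ≤ Θ w := hΘmono _ _ h1
      _ ≤ mass J v A := hAm
  · intro Φ hΦ hpΦ A' hA' hA'ne
    have h1 : A' ∈ 𝒞 := by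
      rw [h𝒞, mem_filter, mem_image]
      refine ⟨⟨Φ, ?_, hA'.symm⟩, hA'ne⟩
      rw [mem_filter, mem_powerset]
      exact ⟨hΦ, hpΦ⟩
    have h2 := hθ𝒞 A' h1
    simp only [hϑ] at h2
    have h3 : θ * n ≤ (ncos Q ψ A' : ℝ) * (s:ℝ) ^ (e (Module.finrank ℝ A')) := by
      rw [le_div_iff₀ (by linarith only [hn1])] at h2
      exact h2
    calc n = 1 * n := (one_mul n).symm
      _ ≤ (θ * (2 * 2 ^ j)) * n := mul_le_mul_of_nonneg_right hj4.le (by linarith only [hn1])
      _ = (2 * 2 ^ j) * (θ * n) := by ring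
      _ ≤ (2 * 2 ^ j) * ((ncos Q ψ A' : ℝ) * (s:ℝ) ^ (e (Module.finrank ℝ A'))) :=
          mul_le_mul_of_nonneg_left h3 (by positivity)

end Vale.Agent.P054M
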