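import Vale.Agent.P054.MathlibUsed
import Vale.Agent.P054.H449.RM.Sel
attribute [-instance] ProperSMul.toContinuousSMul IsTopologicalTorsor.toContinuousSMul IdemSemiring.toCanonicallyOrderedAdd IdemSemiring.toMulLeftMono IdemSemiring.toMulRightMono AddQuantale.instAddLeftMono AddQuantale.instAddRightMono Quantale.instMulLeftMono Quantale.instMulRightMono FiniteDimensional.rclike_to_real IsScalarTower.complexToReal FiniteDimensional.complexToReal

set_option linter.all false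
set_option autoImplicit false

open Finset Vale.Agent.P054K

namespace Vale.Agent.P054M

/-- outcome of the adaptive choice for the good centres `G` and the pairs `J` off the mirrors -/
structure DataG {d : ℕ} (P G Q : Finset (EuclideanSpace ℝ (Fin d))) (s x l t1 I : ℕ)
    (Λ κ FF m2 : ℝ) (J : Finset (Fin s × (EuclideanSpace ℝ (Fin d) × EuclideanSpace ℝ (Fin d))))
    (jp wp : EuclideanSpace ℝ (Fin d) → ℕ)
    (Ap : EuclideanSpace ℝ (Fin d) → Submodule ℝ (EuclideanSpace ℝ (Fin d) × ℝ)) : Prop where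
  hs1 : 1 ≤ s
  hst : (s:ℝ) ≤ (48 * (l:ℝ)) * t1
  hxup : (x:ℝ) ≤ 2 ^ (I + 14) * Λ * t1 / s
  hQP : Q ⊆ P
  hGP : G ⊆ P
  hQne : Q.Nonempty
  hPQ : (P.card : ℝ) ≤ l * Q.card
  hPG : (P.card : ℝ) ≤ 4 * G.card
  hsbig : 8192 * κ * Λ * FF ^ (d + 2) < s
  hJ : (J.card : ℝ) ≤ s * Q.card * x
  hne : ∀ i ∈ J, vv i ≠ 0
  hline : ∀ i ∈ J, mass J vv (Submodule.span ℝ {vv i}) ≤ 8 * Q.card * Λ
  hline2 : ∀ i ∈ J, mass J vv (Submodule.span ℝ {vv i}) ≤ s * m2
  hA1 : ∀ p ∈ G, Ap p ≤ hyp p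
  hA2 : ∀ p ∈ G, Module.finrank ℝ (Ap p) = wp p
  hA3 : ∀ p ∈ G, 1 ≤ wp p
  hA4 : ∀ p ∈ G, (2:ℝ) ^ (jp p) ≤ Q.card
  hA5 : ∀ p ∈ G, (s * Q.card * 2 ^ (jp p) / (1024 * κ)) * (FF ^ (wp p) / FF ^ (d + 1)) ≤
        mass J vv (Ap p)
  hA6 : ∀ p ∈ G, ∀ B' : Submodule ℝ (EuclideanSpace ℝ (Fin d) × ℝ), B' < Ap p →
        FF * mass J vv B' ≤ mass J vv (Ap p)
  hA7 : ∀ p ∈ G, ∀ Φ ⊆ G, p ∈ Φ → ∀ A' : Submodule ℝ (EuclideanSpace ℝ (Fin d) × ℝ),
        A' = (⨅ p' ∈ Φ, hyp p') → A' ≠ ⊥ →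
        (Q.card : ℝ) ≤ 2 * 2 ^ (jp p) *
          ((ncos Q para A' : ℝ) * (s:ℝ) ^ (Module.finrank ℝ A' - 1))

open scoped Classical in
/-- double counting: few centres see many pairs with a poor bisector -/
theorem poor_count {d s : ℕ} (P : Finset (EuclideanSpace ℝ (Fin d)))
    (J : Finset (Fin s × (EuclideanSpace ℝ (Fin d) × EuclideanSpace ℝ (Fin d)))) (M : ℕ)
    (hJ : ∀ i ∈ J, pc P i.2 ≤ M) (θ : ℝ) (hθ : 0 ≤ θ) :
    θ * (P.filter (fun p => θ < mass J vv (hyp p))).card ≤ M * J.card := by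
  have h1 : ∑ p ∈ P, mass J vv (hyp p) = ∑ i ∈ J, (pc P i.2 : ℝ) := by
    unfold mass pc vv
    push_cast [Finset.card_filter]
    rw [Finset.sum_comm]
    apply Finset.sum_congr rfl
    intro i _
    apply Finset.sum_congr rfl
    intro p _
    rfl
  have h2 : ∑ i ∈ J, (pc P i.2 : ℝ) ≤ M * J.card := by
    calc ∑ i ∈ J, (pc P i.2 : ℝ) ≤ ∑ _i ∈ J, (M:ℝ) :=
          Finset.sum_le_sum (fun i hi => by exact_mod_cast hJ i hi)
      _ = M * J.card := by rw [Finset.sum_const, nsmul_eq_mul]; ring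
  have h3 : θ * (P.filter (fun p => θ < mass J vv (hyp p))).card ≤ ∑ p ∈ P, mass J vv (hyp p) := by
    calc θ * (P.filter (fun p => θ < mass J vv (hyp p))).card
        = ∑ _p ∈ P.filter (fun p => θ < mass J vv (hyp p)), θ := by
          rw [Finset.sum_const, nsmul_eq_mul]; ring
      _ ≤ ∑ p ∈ P.filter (fun p => θ < mass J vv (hyp p)), mass J vv (hyp p) :=
          Finset.sum_le_sum (fun p hp => (mem_filter.mp hp).2.le)
      _ ≤ ∑ p ∈ P, mass J vv (hyp p) :=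
          Finset.sum_le_sum_of_subset_of_nonneg (filter_subset _ _)
            (fun p _ _ => mass_nonneg _ _ _)
  linarith only [h1, h2, h3]

open scoped Classical in
/-- the pairs on mirrors through a centre on few mirrors -/
theorem mir_count {d s : ℕ} (P : Finset (EuclideanSpace ℝ (Fin d)))
    (J : Finset (Fin s × (EuclideanSpace ℝ (Fin d) × EuclideanSpace ℝ (Fin d)))) (M m b : ℕ)
    (hJP : ∀ i ∈ J, i.2 ∈ P.offDiag)
    (hJ : ∀ i ∈ J, M < pc P i.2 ∧ m < mc P i.2) (T : ℝ)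
    (hT : ∀ i ∈ J, mass J vv (Submodule.span ℝ {vv i}) ≤ T) (hT0 : 0 ≤ T)
    (p : EuclideanSpace ℝ (Fin d)) (hp : (mir P M m p).card ≤ b) :
    mass J vv (hyp p) ≤ b * T := by
  have h1 : J.filter (fun i => vv i ∈ hyp p) ⊆
      (mir P M m p).biUnion (fun L => J.filter (fun i => vv i ∈ L ∧
        Submodule.span ℝ {vv i} = L)) := by
    intro i hi
    rw [mem_filter] at hi
    rw [mem_biUnion]
    refine ⟨Submodule.span ℝ {vv i}, ?_, ?_⟩
    · unfold mir
      rw [mem_image]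
      refine ⟨i.2, ?_, ?_⟩
      · rw [mem_filter]
        exact ⟨hJP i hi.1, hi.2, hJ i hi.1⟩
      · rfl
    · rw [mem_filter]
      exact ⟨hi.1, Submodule.mem_span_singleton_self _, rfl⟩
  have h2 : ∀ L ∈ mir P M m p, ((J.filter (fun i => vv i ∈ L ∧
        Submodule.span ℝ {vv i} = L)).card : ℝ) ≤ T := by
    intro L _
    rcases (J.filter (fun i => vv i ∈ L ∧ Submodule.span ℝ {vv i} = L)).eq_empty_or_nonempty
      with h | ⟨i, hi⟩
    · rw [h]; simpa using hT0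
    · rw [mem_filter] at hi
      refine le_trans ?_ (hT i hi.1)
      unfold mass
      rw [hi.2.2]
      exact_mod_cast card_le_card (fun i' hi' => by
        rw [mem_filter] at hi' ⊢
        exact ⟨hi'.1, hi'.2.1⟩)
  unfold mass
  calc ((J.filter (fun i => vv i ∈ hyp p)).card : ℝ)
      ≤ (((mir P M m p).biUnion (fun L => J.filter (fun i => vv i ∈ L ∧
        Submodule.span ℝ {vv i} = L))).card : ℝ) := by exact_mod_cast card_le_card h1
    _ ≤ ((∑ L ∈ mir P M m p, (J.filter (fun i => vv i ∈ L ∧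
        Submodule.span ℝ {vv i} = L)).card : ℕ) : ℝ) := by exact_mod_cast card_biUnion_le
    _ = ∑ L ∈ mir P M m p, ((J.filter (fun i => vv i ∈ L ∧
        Submodule.span ℝ {vv i} = L)).card : ℝ) := by push_cast; rfl
    _ ≤ ∑ _L ∈ mir P M m p, T := Finset.sum_le_sum h2
    _ = (mir P M m p).card * T := by rw [Finset.sum_const, nsmul_eq_mul]
    _ ≤ b * T := mul_le_mul_of_nonneg_right (by exact_mod_cast hp) hT0

open scoped Classical in
/-- one copy per round -/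
theorem line_copies {d s : ℕ} (P : Finset (EuclideanSpace ℝ (Fin d)))
    (J : Finset (Fin s × (EuclideanSpace ℝ (Fin d) × EuclideanSpace ℝ (Fin d)))) (m : ℕ)
    (hJP : ∀ i ∈ J, i.2 ∈ P.offDiag)
    (π : EuclideanSpace ℝ (Fin d) × EuclideanSpace ℝ (Fin d)) (hm : mc P π ≤ m) :
    mass J vv (Submodule.span ℝ {dualVec π}) ≤ s * m := by
  have h1 : J.filter (fun i => vv i ∈ Submodule.span ℝ {dualVec π}) ⊆
      (Finset.univ : Finset (Fin s)) ×ˢ
        (P.offDiag.filter (fun σ => dualVec σ ∈ Submodule.span ℝ {dualVec π})) := by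
    intro i hi
    rw [mem_filter] at hi
    rw [mem_product, mem_filter]
    exact ⟨mem_univ _, hJP i hi.1, hi.2⟩
  have h2 := card_le_card h1
  rw [card_product, Finset.card_univ, Fintype.card_fin] at h2
  unfold mass
  have h3 : s * (P.offDiag.filter (fun σ => dualVec σ ∈ Submodule.span ℝ {dualVec π})).card
      ≤ s * m := Nat.mul_le_mul_left _ hm
  exact_mod_cast h2.trans h3

end Vale.Agent.P054M
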