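import Vale.Agent.P054.MathlibUsed
import Vale.Agent.P054.H449.RM.Data
attribute [-instance] ProperSMul.toContinuousSMul IsTopologicalTorsor.toContinuousSMul IdemSemiring.toCanonicallyOrderedAdd IdemSemiring.toMulLeftMono IdemSemiring.toMulRightMono AddQuantale.instAddLeftMono AddQuantale.instAddRightMono Quantale.instMulLeftMono Quantale.instMulRightMono FiniteDimensional.rclike_to_real IsScalarTower.complexToReal FiniteDimensional.complexToReal

set_option linter.all false
set_option autoImplicit false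

open Finset Vale.Agent.P054K

namespace Vale.Agent.P054M

open scoped Classical in
/-- the adaptive choice: either `M` or `b` is large, or there are good centres -/
theorem dataG_of (d : ℕ) (hd : 2 ≤ d) (P : Finset (EuclideanSpace ℝ (Fin d))) (t1 l I : ℕ)
    (N : ℝ) (ht1 : 1 ≤ t1) (hpin : ∀ p ∈ P, (P.image (dist p)).card ≤ t1)
    (hN : 1 ≤ N) (h4 : 2 * Real.log N + 1 ≤ l) (h5 : 2 ^ (I + 1) ≤ l)
    (h6 : 16 * (2 * Real.log N + 1) * ((t1:ℝ) + 2) ≤ (l:ℝ) ^ I)
    (h7 : 2 * (P.card : ℝ) ^ 2 ≤ N)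
    (hbig : 2 ^ (2 * I + 17) * (2 * Real.log N + 1) * (t1:ℝ) < P.card)
    (κ FF : ℝ) (hκ : κ = 2 * (5 * (l:ℝ)) ^ (d + 1)) (hFF1 : 1 ≤ FF)
    (hbig2 : 2 ^ 15 * 3 ^ d * (l:ℝ) ^ (d + 3) * (t1:ℝ) *
      (8192 * (2 * κ) * (2 * Real.log N + 1) * FF ^ (d + 2)) ^ (d - 1) < P.card)
    (hgd : ∀ s : ℕ, 16 * (2 * Real.log N + 1) * ((t1:ℝ) + 2) ≤ s →
      ¬ Gd P P (S2 P) rng s 2) (M m b : ℕ)
    (hmir : 2 * (P.filter (fun p => b < (mir P M m p).card)).card ≤ P.card) :
    ∃ (s x : ℕ), 1 ≤ s ∧ (x:ℝ) ≤ 2 ^ (I + 14) * (2 * Real.log N + 1) * t1 / s ∧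
      (P.card : ℝ) ≤ 2 ^ 15 * 3 ^ d * (l:ℝ) ^ (d + 3) * t1 * (s:ℝ) ^ (d - 1) ∧
      ((P.card : ℝ) < 16384 * κ * M * x ∨ (s:ℝ) < 32768 * κ * (2 * Real.log N + 1) * b ∨
      ∃ (G Q : Finset (EuclideanSpace ℝ (Fin d)))
      (J : Finset (Fin s × (EuclideanSpace ℝ (Fin d) × EuclideanSpace ℝ (Fin d))))
      (jp wp : EuclideanSpace ℝ (Fin d) → ℕ)
      (Ap : EuclideanSpace ℝ (Fin d) → Submodule ℝ (EuclideanSpace ℝ (Fin d) × ℝ)),
      DataG P G Q s x l t1 I (2 * Real.log N + 1) (2 * κ) FF m J jp wp Ap) := by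
  set Λ : ℝ := 2 * Real.log N + 1 with hΛ
  have hlogN : 0 ≤ Real.log N := Real.log_nonneg hN
  have hΛ1 : 1 ≤ Λ := by rw [hΛ]; linarith only [hlogN]
  have htR : (1:ℝ) ≤ t1 := by exact_mod_cast ht1
  have hPpos : (0:ℝ) < P.card := lt_of_le_of_lt (by positivity) hbig
  have hP : P.Nonempty := by rw [← card_pos]; exact_mod_cast hPpos
  have hl1 : 1 ≤ l := Nat.one_le_two_pow.trans h5
  have hlR : (1:ℝ) ≤ l := by exact_mod_cast hl1
  have hl0 : (0:ℝ) < l := by linarith only [h4, hlogN]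
  have hIl : (2:ℝ) ^ I ≤ l := by
    have h5R : (2:ℝ) ^ (I + 1) ≤ l := by exact_mod_cast h5
    have : (2:ℝ) ^ (I + 1) = 2 * 2 ^ I := by ring
    rw [this] at h5R
    have h2 : (0:ℝ) < 2 ^ I := by positivity
    linarith only [h5R]
  have hn1 : (1:ℝ) ≤ P.card := by exact_mod_cast hP.card_pos
  have hPN : (P.card : ℝ) ≤ N := by nlinarith only [h7, hn1]
  have hS : (S2 P).Nonempty := by
    rw [← card_pos, card_S2]
    have := hP.card_pos
    (clear * - hκ hbig2 hP; positivity)
  have hSlog : Real.log (S2 P).card ≤ Λ := by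
    have h1 : ((S2 P).card : ℝ) ≤ N := by
      rw [card_S2]; push_cast; exact h7
    have h2 : (0:ℝ) < (S2 P).card := by exact_mod_cast hS.card_pos
    have h3 := Real.log_le_log h2 h1
    rw [hΛ]; linarith only [hlogN, h3]
  have hZlog : 2 * Real.log P.card + 1 ≤ Λ := by
    have := Real.log_le_log (by linarith only [hPpos]) hPN
    rw [hΛ]; linarith only [this]
  obtain ⟨s, x, Q, g', g, F, hQZ, hs1, hs2, hx8, hxlow, hxup, hZQ, hg', hcell, hR, hsep⟩ :=
    adaptive P (S2 P) rng t1 l I Λ hP hS hl1 ht1 hZlog hSlog hΛ1 h6 hgd hbig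
  have hs1R : (1:ℝ) ≤ s := by exact_mod_cast hs1
  have hs0 : (0:ℝ) < s := by linarith only [hs1R]
  have hQne : Q.Nonempty := by
    rw [← card_pos]
    rcases Nat.eq_zero_or_pos Q.card with h | h
    · rw [h, mul_zero] at hZQ
      have := hP.card_pos
      omega
    · exact h
  have hPQ : (P.card : ℝ) ≤ l * Q.card := by
    have h1 : P.card ≤ l * Q.card := hZQ.trans (Nat.mul_le_mul_right _ h5)
    exact_mod_cast h1
  have hx1 : 1 ≤ x := by omega
  have hcellnum := cell_num d l s I (by omega) hl1 hs1 P.card Q.card x Λ t1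
    (L2_cells d Q l s x g' (fun y hy => by convert hcell y hy)) hPQ
    (by positivity) hxup h4 (by linarith only [hlogN]) (by linarith only [htR]) hIl
  have hκ1 : 1 ≤ κ := by
    have : (1:ℝ) ≤ (5 * (l:ℝ)) ^ (d + 1) := one_le_pow₀ (by linarith only [h4, hlogN])
    rw [hκ]; linarith only [this]
  refine ⟨s, x, hs1, hxup, hcellnum, ?_⟩
  by_cases hMx : (P.card : ℝ) < 16384 * κ * M * x
  · exact Or.inl hMx
  by_cases hbs : (s:ℝ) < 32768 * κ * Λ * b
  · exact Or.inr (Or.inl hbs)
  refine Or.inr (Or.inr ?_)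
  push Not at hMx hbs
  have hsbig : 8192 * (2 * κ) * Λ * FF ^ (d + 2) < s := by
    by_contra hcon
    push Not at hcon
    have h1 : (s:ℝ) ^ (d - 1) ≤ (8192 * (2 * κ) * Λ * FF ^ (d + 2)) ^ (d - 1) :=
      pow_le_pow_left₀ hs0.le hcon _
    have h2 := hcellnum.trans (mul_le_mul_of_nonneg_left h1 (by positivity))
    linarith only [hbig2, h2]
  have hval : ∀ p ∈ P, (s * Q.card : ℝ) / 8 ≤ mass (idx F) vv (hyp p) := by
    intro p hp
    have h1 := value_pairs hR (dist p) t1 ((card_le_card (image_subset_image hQZ)).trans (hpin p hp))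
      (by
        intro c hc
        rw [mem_image] at hc
        obtain ⟨z, hz, rfl⟩ := hc
        refine ⟨((p, z), true), ?_, ?_⟩
        · unfold S2
          rw [mem_product, mem_product]
          exact ⟨⟨hp, hQZ hz⟩, mem_univ _⟩
        · intro q _
          exact rng_ball p z q) (Λ / s) (by (clear * - hlogN hs1; positivity)) hsep hx8 hxlow
    rw [← idx_filter hR] at h1
    refine h1.trans (le_of_eq ?_)
    unfold mass
    congr 2
    apply Finset.filter_congr
    intro i _
    unfold vv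
    rw [para_sub, dualVec_mem_hyp]
  have hoff : ∀ i ∈ idx F, i.2 ∈ P.offDiag := by
    intro i hi
    rw [mem_idx] at hi
    obtain ⟨X, hX, hi⟩ := hi
    rw [mem_offDiag] at hi ⊢
    exact ⟨hQZ (hR.sub _ X hX hi.1), hQZ (hR.sub _ X hX hi.2.1), hi.2.2⟩
  have hvne : ∀ i ∈ idx F, vv i ≠ 0 := by
    intro i hi
    have h1 := hoff i hi
    rw [mem_offDiag] at h1
    exact dualVec_ne_zero (i.2.1, i.2.2) h1.2.2
  have hlineF : ∀ i ∈ idx F, mass (idx F) vv (Submodule.span ℝ {vv i}) ≤ 8 * Q.card * Λ := by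
    intro i hi
    have hi' := hoff i hi
    rw [mem_offDiag] at hi'
    have hσ : ((i.2.1, i.2.2), false) ∈ S2 P := by
      unfold S2
      rw [mem_product, mem_product]
      exact ⟨⟨hi'.1, hi'.2.1⟩, mem_univ _⟩
    have h1 := mirror_mass hR hx1
      (fun π => dualVec π ∈ Submodule.span ℝ {dualVec (i.2.1, i.2.2)}) ((i.2.1, i.2.2), false)
      (Λ / s) (hsep _ hσ) (fun X => mirror_count X i.2.1 i.2.2 hi'.2.2)
    have h2 : 8 * (s:ℝ) * Q.card * (Λ / s) = 8 * Q.card * Λ := by
      (clear * - hs0; field_simp)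
    rw [h2] at h1
    exact h1
  -- the three kinds of pairs
  set Jp := (idx F).filter (fun i => pc P i.2 ≤ M) with hJp
  set Jm := (idx F).filter (fun i => M < pc P i.2 ∧ m < mc P i.2) with hJm
  set J := (idx F).filter (fun i => M < pc P i.2 ∧ mc P i.2 ≤ m) with hJdef
  have hsd : idx F \ J ⊆ Jp ∪ Jm := by
    intro i hi
    rw [mem_sdiff, hJdef, mem_filter] at hi
    rw [mem_union, hJp, hJm, mem_filter, mem_filter]
    by_cases h1 : pc P i.2 ≤ M
    · exact Or.inl ⟨hi.1, h1⟩
    · push Not at h1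
      refine Or.inr ⟨hi.1, h1, ?_⟩
      by_contra h2
      push Not at h2
      exact hi.2 ⟨hi.1, h1, h2⟩
  have hJsub : J ⊆ idx F := filter_subset _ _
  set θ : ℝ := s * Q.card / (4096 * κ) with hθ
  have hq1 : (1:ℝ) ≤ Q.card := by exact_mod_cast hQne.card_pos
  have hθ0 : 0 < θ := by (clear * - hs0 hq1 hκ1; positivity)
  set G := P.filter (fun p => (mir P M m p).card ≤ b ∧ mass Jp vv (hyp p) ≤ θ) with hG
  have hGP : G ⊆ P := filter_subset _ _
  have hidx := idx_card_le hR
  have hPG : (P.card : ℝ) ≤ 4 * G.card := by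
    have h1 := poor_count P Jp M (fun i hi => (mem_filter.mp hi).2) θ hθ0.le
    have h2 : (Jp.card : ℝ) ≤ s * Q.card * x :=
      le_trans (by exact_mod_cast card_le_card (filter_subset _ _)) hidx
    have h3 : (P.filter (fun p => θ < mass Jp vv (hyp p))).card ≤ (P.card : ℝ) / 4 := by
      have h4 : θ * (P.filter (fun p => θ < mass Jp vv (hyp p))).card ≤ M * (s * Q.card * x) :=
        h1.trans (mul_le_mul_of_nonneg_left h2 (by positivity))
      have h5 : (M:ℝ) * (s * Q.card * x) = θ * (4096 * κ * M * x) := by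
        rw [hθ]; (clear * - hκ1; field_simp)
      rw [h5] at h4
      have h6 := le_of_mul_le_mul_left h4 hθ0
      linarith only [h6, hMx]
    have h4 : P ⊆ (G ∪ P.filter (fun p => b < (mir P M m p).card)) ∪
        P.filter (fun p => θ < mass Jp vv (hyp p)) := by
      intro p hp
      rw [mem_union, mem_union, hG, mem_filter, mem_filter, mem_filter]
      by_cases h5 : (mir P M m p).card ≤ b
      · by_cases h6 : mass Jp vv (hyp p) ≤ θ
        · exact Or.inl (Or.inl ⟨hp, h5, h6⟩)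
        · push Not at h6
          exact Or.inr ⟨hp, h6⟩
      · push Not at h5
        exact Or.inl (Or.inr ⟨hp, h5⟩)
    have h5 := (card_le_card h4).trans ((card_union_le _ _).trans
      (Nat.add_le_add_right (card_union_le _ _) _))
    have h6 : (P.card : ℝ) ≤ G.card + (P.filter (fun p => b < (mir P M m p).card)).card +
        (P.filter (fun p => θ < mass Jp vv (hyp p))).card := by exact_mod_cast h5
    have h7 : 2 * ((P.filter (fun p => b < (mir P M m p).card)).card : ℝ) ≤ P.card := by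
      exact_mod_cast hmir
    linarith only [h3, h6, h7]
  have hbad : ∀ p ∈ G, mass (idx F \ J) vv (hyp p) ≤ s * Q.card / (2048 * κ) := by
    intro p hp
    rw [hG, mem_filter] at hp
    have h1 : mass (idx F \ J) vv (hyp p) ≤ mass Jp vv (hyp p) + mass Jm vv (hyp p) := by
      unfold mass
      have h2 : (idx F \ J).filter (fun i => vv i ∈ hyp p) ⊆
          Jp.filter (fun i => vv i ∈ hyp p) ∪ Jm.filter (fun i => vv i ∈ hyp p) := by
        rw [← filter_union]
        exact filter_subset_filter _ hsd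
      exact_mod_cast (card_le_card h2).trans (card_union_le _ _)
    have h2 := mir_count P Jm M m b (fun i hi => hoff i (mem_of_mem_filter i hi))
      (fun i hi => (mem_filter.mp hi).2) (8 * Q.card * Λ)
      (fun i hi => (mass_mono (filter_subset _ _) vv le_rfl).trans
        (hlineF i (mem_of_mem_filter i hi))) (by (clear * - hΛ1; positivity)) p hp.2.1
    have h3 : (b:ℝ) * (8 * Q.card * Λ) ≤ θ := by
      rw [hθ, le_div_iff₀ (by positivity)]
      calc (b:ℝ) * (8 * Q.card * Λ) * (4096 * κ) = (32768 * κ * Λ * b) * Q.card := by ring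
        _ ≤ s * Q.card := mul_le_mul_of_nonneg_right hbs (by positivity)
    have h4 : (s:ℝ) * Q.card / (2048 * κ) = θ + θ := by
      rw [hθ]; (clear * - hκ1; field_simp; ring)
    rw [h4]
    linarith only [h1, h2, h3, hp.2.2]
  have hsel := fun p (hp : p ∈ G) => select2 hR hs1 hs1 hQne G para hyp (fun w => w - 1) κ FF (d + 1)
    finrank_V.le hκ1 hFF1
    (by
      intro q _ q' _ h
      exact congrArg Prod.fst h) (fun p hp => hval p (hGP hp))
    (by
      intro A hAne hAp τ v' hv'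
      obtain ⟨p, _, hAp⟩ := hAp
      rw [mem_image] at hv'
      obtain ⟨q₀, _, hq₀⟩ := hv'
      have hA1 : 1 ≤ Module.finrank ℝ A := by
        by_contra h0
        have h1 : Module.finrank ℝ A = 0 := by omega
        exact hAne (Submodule.finrank_eq_zero.mp h1)
      have h1 := parab_two_patterns A p hAp hA1 (Q.filter (fun q => A.mkQ (para q) = v')) q₀ (by
        intro y hy
        have h2 := (mem_filter.mp hy).2
        rw [← hq₀, Submodule.mkQ_apply, Submodule.mkQ_apply, Submodule.Quotient.eq] at h2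
        exact h2) s (l * s) (g τ) g'
      have h2 : Module.finrank ℝ A ≤ d + 1 := (Submodule.finrank_le A).trans finrank_V.le
      have h3 := kappa_num (d + 1) (Module.finrank ℝ A - 1) l s (by omega) hs1 hl1
      rw [← hκ] at h3
      refine le_trans ?_ h3
      exact_mod_cast h1) p hp J hJsub (le_trans (le_of_eq (by congr; exact Subsingleton.elim _ _)) (hbad p hp))
  choose! jp wp Ap hA1 hA2 hA3 hA4 hA5 hA6 hA7 using hsel
  refine ⟨G, Q, J, jp, wp, Ap, ⟨hs1, ?_, hxup, hQZ, hGP, hQne, hPQ, hPG, hsbig,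
    le_trans (by exact_mod_cast card_le_card hJsub) hidx, fun i hi => hvne i (hJsub hi), ?_, ?_,
    hA1, hA2, hA3, hA4, hA5, hA6, hA7⟩⟩
  · have h1 : 16 * Λ * ((t1:ℝ) + 2) ≤ 48 * l * t1 := by nlinarith only [h4, htR]
    linarith only [hs2, h1]
  · intro i hi
    exact (mass_mono hJsub vv le_rfl).trans (hlineF i (hJsub hi))
  · intro i hi
    exact line_copies P J m (fun i hi => hoff i (hJsub hi)) i.2 (mem_filter.mp hi).2.2

end Vale.Agent.P054M
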