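import Vale.Agent.P054.MathlibUsed
import Vale.Agent.P054.H449.RM.Data2
attribute [-instance] ProperSMul.toContinuousSMul IsTopologicalTorsor.toContinuousSMul IdemSemiring.toCanonicallyOrderedAdd IdemSemiring.toMulLeftMono IdemSemiring.toMulRightMono AddQuantale.instAddLeftMono AddQuantale.instAddRightMono Quantale.instMulLeftMono Quantale.instMulRightMono FiniteDimensional.rclike_to_real IsScalarTower.complexToReal FiniteDimensional.complexToReal

set_option linter.all false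
set_option autoImplicit false

open Finset Vale.Agent.P054K

namespace Vale.Agent.P054M

open scoped Classical in
theorem fibreG {d : ℕ} {K' : ℝ} {c' : ℕ} (hK' : 1 ≤ K') (hL1 : ∀ D' ≤ d, L1 D' K' c')
    (P G Q : Finset (EuclideanSpace ℝ (Fin d))) (s x t t1 l I : ℕ) (N κ FF m2 : ℝ)
    (J : Finset (Fin s × (EuclideanSpace ℝ (Fin d) × EuclideanSpace ℝ (Fin d))))
    (jp wp : EuclideanSpace ℝ (Fin d) → ℕ)
    (Ap : EuclideanSpace ℝ (Fin d) → Submodule ℝ (EuclideanSpace ℝ (Fin d) × ℝ))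
    (hdat : DataG P G Q s x l t1 I (2 * Real.log N + 1) κ FF m2 J jp wp Ap)
    (ht1 : t1 = t + 1) (hpin : ∀ p ∈ P, (P.image (dist p)).card ≤ t + 1)
    (hN : 1 ≤ N) (h4 : 2 * Real.log N + 1 ≤ l) (h5 : 2 ^ (I + 1) ≤ l)
    (h6 : 16 * (2 * Real.log N + 1) * ((t1:ℝ) + 2) ≤ (l:ℝ) ^ I)
    (hPN : (P.card : ℝ) ≤ N) (h8 : (P.card : ℝ) * (t1:ℝ) ≤ N)
    (hflat : ∀ j < d, PinnedBy j t (l * (t1:ℝ) ^ j))
    (j w : ℕ) (hw2 : 2 ≤ w) (A : Submodule ℝ (EuclideanSpace ℝ (Fin d) × ℝ)) :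
    ((G.filter (fun p => (jp p = j ∧ wp p = w) ∧ Ap p = A)).card : ℝ) * Q.card ≤
      2 * 2 ^ j * ((K' * (l:ℝ) ^ c' * (48 * (l:ℝ)) ^ d) *
        ((s:ℝ) ^ (w - 1) * (t1:ℝ) ^ (d - (w - 1)))) := by
  set Φ := G.filter (fun p => (jp p = j ∧ wp p = w) ∧ Ap p = A) with hΦ
  rcases Φ.eq_empty_or_nonempty with hΦe | ⟨p₀, hp₀Φ⟩
  · rw [hΦe, card_empty]; simp only [Nat.cast_zero, zero_mul]; (clear * - hK'; positivity)
  have hΦG : Φ ⊆ G := filter_subset _ _
  have hΦB : Φ ⊆ P := hΦG.trans hdat.hGP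
  have htR : (1:ℝ) ≤ t1 := by
    rw [ht1]; push_cast; have : (0:ℝ) ≤ t := by positivity
    linarith only []
  have hl1 : 1 ≤ l := Nat.one_le_two_pow.trans h5
  have hlR : (1:ℝ) ≤ l := by exact_mod_cast hl1
  have hΦ' : ∀ p ∈ Φ, p ∈ G ∧ jp p = j ∧ wp p = w ∧ Ap p = A := by
    intro p hp
    have h1 := mem_filter.mp hp
    exact ⟨h1.1, h1.2.1.1, h1.2.1.2, h1.2.2⟩
  obtain ⟨hp₀B, hp₀j, hp₀w, hp₀A⟩ := hΦ' p₀ hp₀Φ
  set A' : Submodule ℝ (EuclideanSpace ℝ (Fin d) × ℝ) := ⨅ p ∈ Φ, hyp p with hA'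
  have hAA' : A ≤ A' := by
    rw [hA']
    apply le_iInf₂
    intro p hp
    have h1 := hΦ' p hp
    rw [← h1.2.2.2]
    exact hdat.hA1 p h1.1
  have hA'hyp : A' ≤ hyp p₀ := by
    rw [hA']; exact iInf₂_le p₀ hp₀Φ
  have hwA : Module.finrank ℝ A = w := by rw [← hp₀A, hdat.hA2 p₀ hp₀B, hp₀w]
  have hw' : w ≤ Module.finrank ℝ A' := by
    rw [← hwA]; exact Submodule.finrank_mono hAA'
  have hw'D : Module.finrank ℝ A' ≤ d :=
    (Submodule.finrank_mono hA'hyp).trans (finrank_hyp p₀).le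
  have hA'ne : A' ≠ ⊥ := by
    intro h0
    rw [h0, finrank_bot] at hw'
    omega
  have h1 := hdat.hA7 p₀ hp₀B Φ hΦG hp₀Φ A' rfl hA'ne
  rw [hp₀j] at h1
  have hQN : (Q.card : ℝ) ≤ N := le_trans (by exact_mod_cast card_le_card hdat.hQP) hPN
  have hsub := hdat.hQP
  have h2 := L1_quot (hL1 (d + 1 - Module.finrank ℝ A') (by (clear * - hw2 hp₀w hwA hw' hw'D; omega))) Φ phi Q para t1 l I N A' rfl
    (by rw [finrank_V]; omega) (by omega) hN h4 h5 h6 hQN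
    (le_trans (mul_le_mul_of_nonneg_right (by exact_mod_cast card_le_card hΦB) (by (clear * - htR; positivity))) h8)
    (fun p _ => phi_ne_zero p)
    (fun p hp => ((phi_values Q p).trans (card_le_card (image_subset_image hsub))).trans
      (by rw [ht1]; exact hpin p (hΦB hp)))
    (by
      intro C hAC hC
      rcases (Φ.filter (fun p => C ≤ LinearMap.ker (phi p))).eq_empty_or_nonempty with h0 | ⟨p1, hp1⟩
      · rw [h0, card_empty]; simp only [Nat.cast_zero]; (clear * - htR hl1; positivity)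
      · have h10 := (mem_filter.mp hp1).2
        have h11 : Module.finrank ℝ C ≤ d :=
          (Submodule.finrank_mono h10).trans (finrank_hyp p1).le
        have h12 : 1 ≤ Module.finrank ℝ C := by
          have := Submodule.finrank_mono hAC
          omega
        have h13 := flat_bound (j := d - Module.finrank ℝ C) P
          (Φ.filter (fun p => C ≤ LinearMap.ker (phi p))) ((filter_subset _ _).trans hΦB)
          (fun p hp => hpin p hp) C (fun p hp => (mem_filter.mp hp).2) (by (clear * - h11; omega))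
          (hflat (d - Module.finrank ℝ C) (by (clear * - h11 h12; omega)))
        have h14 : Module.finrank ℝ (EuclideanSpace ℝ (Fin d) × ℝ) - Module.finrank ℝ C - 1
            = d - Module.finrank ℝ C := by rw [finrank_V]; omega
        rw [h14]
        exact h13)
  have h3 := num1 d (w - 1) (Module.finrank ℝ A' - 1) (by (clear * - hw2 hp₀w hwA hw'; omega)) (by omega) s t1 (48 * (l:ℝ))
    (by (clear * -; positivity)) htR (by linarith only [hlR]) hdat.hst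
  have h15 : d + 1 - Module.finrank ℝ A' = d - (Module.finrank ℝ A' - 1) := by (clear * - hw2 hp₀w hwA hw' hw'D; omega)
  rw [h15] at h2
  calc (Φ.card : ℝ) * Q.card
      ≤ Φ.card * (2 * 2 ^ j * ((ncos Q para A' : ℝ) * (s:ℝ) ^ (Module.finrank ℝ A' - 1))) :=
        mul_le_mul_of_nonneg_left h1 (by (clear * -; positivity))
    _ = 2 * 2 ^ j * (Φ.card * ncos Q para A') * (s:ℝ) ^ (Module.finrank ℝ A' - 1) := by ring
    _ ≤ 2 * 2 ^ j * (K' * (l:ℝ) ^ c' * (t1:ℝ) ^ (d - (Module.finrank ℝ A' - 1))) *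
        (s:ℝ) ^ (Module.finrank ℝ A' - 1) := by
        apply mul_le_mul_of_nonneg_right _ (by (clear * -; positivity))
        exact mul_le_mul_of_nonneg_left h2 (by positivity)
    _ = 2 * 2 ^ j * (K' * (l:ℝ) ^ c' * ((s:ℝ) ^ (Module.finrank ℝ A' - 1) *
        (t1:ℝ) ^ (d - (Module.finrank ℝ A' - 1)))) := by ring
    _ ≤ 2 * 2 ^ j * (K' * (l:ℝ) ^ c' * ((s:ℝ) ^ (w - 1) * (t1:ℝ) ^ (d - (w - 1)) *
        (48 * (l:ℝ)) ^ d)) := by
        apply mul_le_mul_of_nonneg_left _ (by positivity)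
        exact mul_le_mul_of_nonneg_left h3 (by positivity)
    _ = _ := by ring

open scoped Classical in
/-- the number of rich subspaces -/
theorem richG {d : ℕ} {K0 : ℝ} {c0 : ℕ} (hK0 : 1 ≤ K0)
    (hET : ∀ w, 2 ≤ w → w ≤ d → ETProp w K0 c0)
    (P G Q : Finset (EuclideanSpace ℝ (Fin d))) (s x t1 l I : ℕ) (N κ FF m2 : ℝ)
    (J : Finset (Fin s × (EuclideanSpace ℝ (Fin d) × EuclideanSpace ℝ (Fin d))))
    (jp wp : EuclideanSpace ℝ (Fin d) → ℕ)
    (Ap : EuclideanSpace ℝ (Fin d) → Submodule ℝ (EuclideanSpace ℝ (Fin d) × ℝ))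
    (hdat : DataG P G Q s x l t1 I (2 * Real.log N + 1) κ FF m2 J jp wp Ap) (hm2 : 0 < m2)
    (hN : 1 ≤ N) (h4 : 2 * Real.log N + 1 ≤ l) (hIl : (2:ℝ) ^ I ≤ l) (hlR : (1:ℝ) ≤ l)
    (h9 : 20 * (Real.log (2 ^ 14 * N * (l:ℝ) ^ 2 * (t1:ℝ) + 3) + 1) ≤ l)
    (hPN : (P.card : ℝ) ≤ N) (hκ1 : 1 ≤ κ) (hFF : FF = K0 * (l:ℝ) ^ c0)
    (j w : ℕ) (hw2 : 2 ≤ w) (hwd : w ≤ d) :
    ((((G.filter (fun p => jp p = j ∧ wp p = w)).image Ap).card : ℕ) : ℝ) ≤
      FF * (((1024 * κ * FF ^ (d + 1) * 2 ^ (I + 14) * (2 * Real.log N + 1)) * (t1 / s) / 2 ^ j) ^ w *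
        ((1024 * κ * FF ^ (d + 1) * 2 ^ (I + 14) * (2 * Real.log N + 1)) * (m2 / (Q.card * 2 ^ j))) +
        ((1024 * κ * FF ^ (d + 1) * 2 ^ (I + 14) * (2 * Real.log N + 1)) * (t1 / s) / 2 ^ j) ^ (w - 1)) := by
  set Λ : ℝ := 2 * Real.log N + 1 with hΛ
  have hlogN : 0 ≤ Real.log N := Real.log_nonneg hN
  have hΛ1 : 1 ≤ Λ := by rw [hΛ]; linarith only [hlogN]
  have hs1R : (1:ℝ) ≤ s := by exact_mod_cast hdat.hs1
  have hs0 : (0:ℝ) < s := by linarith only [hs1R]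
  have hq1 : (1:ℝ) ≤ Q.card := by exact_mod_cast hdat.hQne.card_pos
  have hq0 : (0:ℝ) < Q.card := by linarith only [hq1]
  have hQN : (Q.card : ℝ) ≤ N := le_trans (by exact_mod_cast card_le_card hdat.hQP) hPN
  have hFF1 : 1 ≤ FF := by
    rw [hFF]; exact one_le_mul_of_one_le_of_one_le hK0 (one_le_pow₀ hlR)
  have hFF0 : 0 < FF := by linarith only [hFF1]
  set GG : ℝ := 1024 * κ * FF ^ (d + 1) * 2 ^ (I + 14) * Λ with hG
  set m : ℝ := min (8 * Q.card * Λ) (s * m2) with hm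
  have hm0 : 0 < m := by
    rw [hm]
    exact lt_min (by (clear * - hlogN hq1 hΛ1; positivity)) (mul_pos hs0 hm2)
  have hmle : m ≤ 8 * Q.card * Λ := min_le_left _ _
  have hmle2 : m ≤ s * m2 := min_le_right _ _
  set Bc := G.filter (fun p => jp p = j ∧ wp p = w) with hBc
  have hBc' : ∀ p ∈ Bc, p ∈ G ∧ jp p = j ∧ wp p = w := fun p hp => mem_filter.mp hp
  set Zc := Bc.image Ap with hZc
  set ρ : ℝ := (s * Q.card * 2 ^ j / (1024 * κ)) * (FF ^ w / FF ^ (d + 1)) with hρ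
  have hρ0 : 0 < ρ := by (clear * - hκ1 hs1R hq1 hFF1; positivity)
  have hxup := hdat.hxup
  have hMle : (s:ℝ) * Q.card * x ≤ 2 ^ 14 * N * (l:ℝ) ^ 2 * t1 := by
    have e1 : (s:ℝ) * x ≤ 2 ^ 14 * (l:ℝ) ^ 2 * t1 := by
      rw [le_div_iff₀ hs0] at hxup
      have e2 : (2:ℝ) ^ (I + 14) * Λ * t1 ≤ 2 ^ 14 * (l:ℝ) ^ 2 * t1 := by
        apply mul_le_mul_of_nonneg_right _ (by (clear * -; positivity))
        rw [pow_add]
        calc (2:ℝ) ^ I * 2 ^ 14 * Λ = 2 ^ 14 * (2 ^ I * Λ) := by ring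
          _ ≤ 2 ^ 14 * ((l:ℝ) * l) := by
              apply mul_le_mul_of_nonneg_left _ (by positivity)
              exact mul_le_mul hIl h4 (by linarith only [hlogN]) (by positivity)
          _ = 2 ^ 14 * (l:ℝ) ^ 2 := by ring
      linarith only [hxup, e2]
    calc (s:ℝ) * Q.card * x = Q.card * (s * x) := by ring
      _ ≤ N * (2 ^ 14 * (l:ℝ) ^ 2 * t1) := mul_le_mul hQN e1 (by (clear * - hs1R; positivity)) (by linarith only [hN])
      _ = _ := by ring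
  have h1 := hET w hw2 hwd (EuclideanSpace ℝ (Fin d) × ℝ)
    (Fin s × (EuclideanSpace ℝ (Fin d) × EuclideanSpace ℝ (Fin d))) J vv m
    (s * Q.card * x) ρ l Zc hdat.hne (fun i hi => le_min (hdat.hline i hi) (hdat.hline2 i hi)) hm0 hdat.hJ
    (by
      refine le_trans ?_ h9
      have := Real.log_le_log (show (0:ℝ) < (s:ℝ) * Q.card * x + 3 by (clear * - hs1R hq1; positivity))
        (show (s:ℝ) * Q.card * x + 3 ≤ 2 ^ 14 * N * (l:ℝ) ^ 2 * t1 + 3 by linarith only [hMle])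
      linarith only [this])
    (by
      have h3 := ratio_num3 (d + 1) w j s Q.card κ Λ FF hs0 hq0 (by linarith only [hκ1]) hFF1 hdat.hsbig
      rw [← hρ] at h3
      have h3' : FF * m < ρ := lt_of_le_of_lt (mul_le_mul_of_nonneg_left hmle hFF0.le) h3
      rw [hFF] at h3'
      exact h3'.le)
    (by
      intro A hA
      rw [hZc, mem_image] at hA
      obtain ⟨p₀, hp₀, hp₀A⟩ := hA
      obtain ⟨hp₀B, hp₀j, hp₀w⟩ := hBc' p₀ hp₀
      refine ⟨by rw [← hp₀A, hdat.hA2 p₀ hp₀B, hp₀w], ?_, ?_⟩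
      · have h2 := hdat.hA5 p₀ hp₀B
        rw [hp₀j, hp₀w, hp₀A] at h2
        exact h2
      · intro B' hB'
        have h2 := hdat.hA6 p₀ hp₀B B' (by rw [hp₀A]; exact hB')
        rw [hp₀A, hFF] at h2
        exact h2)
  rw [← hFF] at h1
  refine h1.trans ?_
  apply mul_le_mul_of_nonneg_left _ hFF0.le
  have h2 := ratio_num (d + 1) w j I s Q.card x κ Λ t1 FF hs0 hq0 (by linarith only [hκ1]) (by (clear * -; positivity))
    hxup hFF1
  rw [← hρ, ← hG] at h2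
  have h3 : m / ρ ≤ GG * (m2 / (Q.card * 2 ^ j)) := by
    rw [div_le_iff₀ hρ0]
    refine hmle2.trans ?_
    have e1 : GG * (m2 / (Q.card * 2 ^ j)) * ρ = (s * m2) * ((2 ^ (I + 14) * Λ) * FF ^ w) := by
      rw [hG, hρ]
      (clear * - hκ1 hq0 hFF0; field_simp)
    rw [e1]
    apply le_mul_of_one_le_right (by (clear * - hs0 hm2; positivity))
    exact one_le_mul_of_one_le_of_one_le
      (one_le_mul_of_one_le_of_one_le (one_le_pow₀ (by norm_num)) hΛ1) (one_le_pow₀ hFF1)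
  have e1 : ((s:ℝ) * Q.card * x) ^ w * m / ρ ^ (w + 1) =
      ((s * Q.card * x) / ρ) ^ w * (m / ρ) := by
    rw [div_pow, pow_succ]; (clear * - hm0 hρ0; field_simp)
  have e2 : ((s:ℝ) * Q.card * x) ^ (w - 1) / ρ ^ (w - 1) =
      ((s * Q.card * x) / ρ) ^ (w - 1) := by rw [div_pow]
  rw [e1, e2]
  apply add_le_add
  · apply mul_le_mul _ h3 (by (clear * - hm0 hρ0; positivity)) (by (clear * - hκ1 hlogN hs1R hFF1; positivity))
    exact pow_le_pow_left₀ (by (clear * - hκ1 hs1R hq1 hFF1; positivity)) h2 _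
  · exact pow_le_pow_left₀ (by (clear * - hκ1 hs1R hq1 hFF1; positivity)) h2 _

end Vale.Agent.P054M
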