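import Vale.Agent.P054.MathlibUsed
import Vale.Agent.P054.H449.RM.Rich
attribute [-instance] ProperSMul.toContinuousSMul IsTopologicalTorsor.toContinuousSMul IdemSemiring.toCanonicallyOrderedAdd IdemSemiring.toMulLeftMono IdemSemiring.toMulRightMono AddQuantale.instAddLeftMono AddQuantale.instAddRightMono Quantale.instMulLeftMono Quantale.instMulRightMono FiniteDimensional.rclike_to_real IsScalarTower.complexToReal FiniteDimensional.complexToReal

set_option linter.all false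
set_option autoImplicit false

open Finset Vale.Agent.P054K

namespace Vale.Agent.P054M

theorem num4 (d w j : ℕ) (hw2 : 2 ≤ w) (hwd : w ≤ d) (s t q m G E FF : ℝ) (hs : 0 < s)
    (ht : 1 ≤ t) (hq : 0 < q) (hm : 0 ≤ m) (hG : 1 ≤ G) (hE : 0 ≤ E) (hFF : 0 ≤ FF) :
    FF * ((G * (t / s) / 2 ^ j) ^ w * (G * (m / (q * 2 ^ j))) + (G * (t / s) / 2 ^ j) ^ (w - 1)) *
      (2 * 2 ^ j * (E * (s ^ (w - 1) * t ^ (d - (w - 1))))) ≤
      2 * FF * E * G ^ (d + 1) * (t ^ (d + 1) * m / (s * q) + t ^ d) := by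
  obtain ⟨k, rfl⟩ : ∃ k, w = k + 1 := ⟨w - 1, by omega⟩
  simp only [Nat.add_sub_cancel]
  have hk : 1 ≤ k := by omega
  have ht0 : 0 < t := by linarith only [ht]
  have h2j : (1:ℝ) ≤ 2 ^ j := one_le_pow₀ (by norm_num)
  have h2j0 : (0:ℝ) < 2 ^ j := by positivity
  have e1 : (G * (t / s) / 2 ^ j) ^ (k + 1) * (G * (m / (q * 2 ^ j))) *
      (2 * 2 ^ j * (E * (s ^ k * t ^ (d - k)))) =
      2 * E * G ^ (k + 2) * ((t ^ (k + 1) * t ^ (d - k)) * m / (s * q)) * (1 / (2 ^ j) ^ (k + 1)) := by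
    rw [div_pow, mul_pow, div_pow]
    field_simp
    ring
  have e2 : (G * (t / s) / 2 ^ j) ^ k * (2 * 2 ^ j * (E * (s ^ k * t ^ (d - k)))) =
      2 * E * G ^ k * (t ^ k * t ^ (d - k)) * (2 ^ j / (2 ^ j) ^ k) := by
    rw [div_pow, mul_pow, div_pow]
    field_simp
  have e3 : t ^ (k + 1) * t ^ (d - k) = t ^ (d + 1) := by
    rw [← pow_add]; congr 1; omega
  have e4 : t ^ k * t ^ (d - k) = t ^ d := by
    rw [← pow_add]; congr 1; omega
  have h3 : (1:ℝ) / (2 ^ j) ^ (k + 1) ≤ 1 := by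
    rw [div_le_one (by positivity)]
    exact one_le_pow₀ h2j
  have h4 : (2:ℝ) ^ j / (2 ^ j) ^ k ≤ 1 := by
    rw [div_le_one (by positivity)]
    calc (2:ℝ) ^ j = (2 ^ j) ^ 1 := (pow_one _).symm
      _ ≤ (2 ^ j) ^ k := pow_le_pow_right₀ h2j hk
  have h5 : G ^ (k + 2) ≤ G ^ (d + 1) := pow_le_pow_right₀ hG (by omega)
  have h6 : G ^ k ≤ G ^ (d + 1) := pow_le_pow_right₀ hG (by omega)
  have f1 : (G * (t / s) / 2 ^ j) ^ (k + 1) * (G * (m / (q * 2 ^ j))) *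
      (2 * 2 ^ j * (E * (s ^ k * t ^ (d - k)))) ≤ 2 * E * G ^ (d + 1) * (t ^ (d + 1) * m / (s * q)) := by
    rw [e1, e3]
    calc 2 * E * G ^ (k + 2) * (t ^ (d + 1) * m / (s * q)) * (1 / (2 ^ j) ^ (k + 1))
        ≤ 2 * E * G ^ (k + 2) * (t ^ (d + 1) * m / (s * q)) * 1 :=
          mul_le_mul_of_nonneg_left h3 (by (clear * - hs ht hG hE hq hm; positivity))
      _ = 2 * E * G ^ (k + 2) * (t ^ (d + 1) * m / (s * q)) := mul_one _
      _ ≤ 2 * E * G ^ (d + 1) * (t ^ (d + 1) * m / (s * q)) := by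
          apply mul_le_mul_of_nonneg_right _ (by positivity)
          exact mul_le_mul_of_nonneg_left h5 (by (clear * - hE; positivity))
  have f2 : (G * (t / s) / 2 ^ j) ^ k * (2 * 2 ^ j * (E * (s ^ k * t ^ (d - k)))) ≤
      2 * E * G ^ (d + 1) * t ^ d := by
    rw [e2, e4]
    calc 2 * E * G ^ k * t ^ d * (2 ^ j / (2 ^ j) ^ k) ≤ 2 * E * G ^ k * t ^ d * 1 :=
          mul_le_mul_of_nonneg_left h4 (by (clear * - ht hG hE; positivity))
      _ = 2 * E * G ^ k * t ^ d := mul_one _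
      _ ≤ 2 * E * G ^ (d + 1) * t ^ d := by
          apply mul_le_mul_of_nonneg_right _ (by positivity)
          exact mul_le_mul_of_nonneg_left h6 (by (clear * - hE; positivity))
  calc FF * ((G * (t / s) / 2 ^ j) ^ (k + 1) * (G * (m / (q * 2 ^ j))) + (G * (t / s) / 2 ^ j) ^ k) *
      (2 * 2 ^ j * (E * (s ^ k * t ^ (d - k))))
      = FF * ((G * (t / s) / 2 ^ j) ^ (k + 1) * (G * (m / (q * 2 ^ j))) *
        (2 * 2 ^ j * (E * (s ^ k * t ^ (d - k)))) +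
        (G * (t / s) / 2 ^ j) ^ k * (2 * 2 ^ j * (E * (s ^ k * t ^ (d - k))))) := by ring
    _ ≤ FF * (2 * E * G ^ (d + 1) * (t ^ (d + 1) * m / (s * q)) + 2 * E * G ^ (d + 1) * t ^ d) :=
        mul_le_mul_of_nonneg_left (add_le_add f1 f2) hFF
    _ = _ := by ring

/-- elimination of the scale -/
theorem elim4 (d : ℕ) (hd : 2 ≤ d) (n W V t s m : ℝ) (hn : 0 < n) (hW : 0 ≤ W) (hV : 0 ≤ V)
    (ht : 1 ≤ t) (hs : 1 ≤ s) (hm : 0 ≤ m) (h1 : n ≤ V * t * s ^ (d - 1))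
    (h2 : n ^ 2 ≤ W * (t ^ (d + 1) * m / (s * n) + t ^ d)) :
    n ^ 2 ≤ 2 * W * t ^ d ∨ n ^ (3 * d - 2) ≤ (2 * W) ^ (d - 1) * V * (t ^ (d ^ 2) * m ^ (d - 1)) := by
  have hs0 : 0 < s := by linarith only [hs]
  have ht0 : 0 < t := by linarith only [ht]
  rcases le_total (t ^ (d + 1) * m / (s * n)) (t ^ d) with h | h
  · left
    refine h2.trans ?_
    have : W * (t ^ (d + 1) * m / (s * n) + t ^ d) ≤ W * (t ^ d + t ^ d) :=
      mul_le_mul_of_nonneg_left (by linarith only [h]) hW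
    linarith only [this]
  · right
    have h3 : n ^ 2 ≤ 2 * W * (t ^ (d + 1) * m / (s * n)) := by
      refine h2.trans ?_
      have : W * (t ^ (d + 1) * m / (s * n) + t ^ d) ≤
          W * (t ^ (d + 1) * m / (s * n) + t ^ (d + 1) * m / (s * n)) :=
        mul_le_mul_of_nonneg_left (by linarith only [h]) hW
      linarith only [this]
    have h4 : n ^ 3 * s ≤ 2 * W * (t ^ (d + 1) * m) := by
      have h5 : 2 * W * (t ^ (d + 1) * m / (s * n)) = 2 * W * (t ^ (d + 1) * m) / (s * n) := by ring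
      rw [h5, le_div_iff₀ (by positivity)] at h3
      linarith only [h3]
    obtain ⟨k, rfl⟩ : ∃ k, d = k + 1 := ⟨d - 1, by omega⟩
    simp only [Nat.add_sub_cancel] at *
    have h6 : (n ^ 3 * s) ^ k ≤ (2 * W * (t ^ (k + 1 + 1) * m)) ^ k :=
      pow_le_pow_left₀ (by positivity) h4 k
    have h7 : n * (n ^ 3 * s) ^ k ≤ (V * t * s ^ k) * (2 * W * (t ^ (k + 1 + 1) * m)) ^ k :=
      mul_le_mul h1 h6 (by positivity) (by positivity)
    have e1 : n * (n ^ 3 * s) ^ k = n ^ (3 * (k + 1) - 2) * s ^ k := by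
      rw [mul_pow, ← pow_mul, show 3 * (k + 1) - 2 = 3 * k + 1 by omega, pow_succ]
      ring
    have e2 : (V * t * s ^ k) * (2 * W * (t ^ (k + 1 + 1) * m)) ^ k =
        ((2 * W) ^ k * V * (t ^ ((k + 1) ^ 2) * m ^ k)) * s ^ k := by
      rw [mul_pow (2 * W), mul_pow (t ^ (k + 1 + 1)), ← pow_mul,
        show (k + 1) ^ 2 = (k + 1 + 1) * k + 1 by ring, pow_succ t ((k + 1 + 1) * k)]
      ring
    rw [e1, e2] at h7
    exact le_of_mul_le_mul_right h7 (by positivity)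

end Vale.Agent.P054M
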