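import Vale.Agent.P054.MathlibUsed
import Vale.Agent.P054.H449.RM.Num
import Vale.Agent.P054.Bdl.B5
attribute [-instance] ProperSMul.toContinuousSMul IsTopologicalTorsor.toContinuousSMul IdemSemiring.toCanonicallyOrderedAdd IdemSemiring.toMulLeftMono IdemSemiring.toMulRightMono AddQuantale.instAddLeftMono AddQuantale.instAddRightMono Quantale.instMulLeftMono Quantale.instMulRightMono FiniteDimensional.rclike_to_real IsScalarTower.complexToReal FiniteDimensional.complexToReal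

set_option linter.all false
set_option autoImplicit false

open Finset Vale.Agent.P054K

namespace Vale.Agent.P054M

open scoped Classical in
theorem caseG (d : ℕ) (hd : 2 ≤ d) {K0 : ℝ} {c0 : ℕ} (hK0 : 1 ≤ K0)
    (hET : ∀ w, 2 ≤ w → w ≤ d → ETProp w K0 c0) {K' : ℝ} {c' : ℕ} (hK' : 1 ≤ K')
    (hL1 : ∀ D' ≤ d, L1 D' K' c') (P G Q : Finset (EuclideanSpace ℝ (Fin d))) (s x t t1 l I : ℕ)
    (N κ FF m2 : ℝ)
    (J : Finset (Fin s × (EuclideanSpace ℝ (Fin d) × EuclideanSpace ℝ (Fin d))))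
    (jp wp : EuclideanSpace ℝ (Fin d) → ℕ)
    (Ap : EuclideanSpace ℝ (Fin d) → Submodule ℝ (EuclideanSpace ℝ (Fin d) × ℝ))
    (hdat : DataG P G Q s x l t1 I (2 * Real.log N + 1) κ FF m2 J jp wp Ap) (hm2 : 0 < m2)
    (ht1 : t1 = t + 1)
    (hpin : ∀ p ∈ P, (P.image (dist p)).card ≤ t + 1)
    (hN : 1 ≤ N) (h4 : 2 * Real.log N + 1 ≤ l) (h5 : 2 ^ (I + 1) ≤ l)
    (h6 : 16 * (2 * Real.log N + 1) * ((t1:ℝ) + 2) ≤ (l:ℝ) ^ I)
    (h7 : 2 * (P.card : ℝ) ^ 2 ≤ N) (h8 : (P.card : ℝ) * (t1:ℝ) ≤ N)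
    (h9 : 20 * (Real.log (2 ^ 14 * N * (l:ℝ) ^ 2 * (t1:ℝ) + 3) + 1) ≤ l)
    (hflat : ∀ j < d, PinnedBy j t (l * (t1:ℝ) ^ j)) (hPne : P.Nonempty)
    (hκ1 : 1 ≤ κ) (hFF : FF = K0 * (l:ℝ) ^ c0) :
    (P.card : ℝ) ^ 2 ≤ (4 * (l:ℝ) * (l * (d * (2 * FF * (K' * (l:ℝ) ^ c' * (48 * (l:ℝ)) ^ d) *
        (1024 * κ * FF ^ (d + 1) * 2 ^ (I + 14) * (2 * Real.log N + 1)) ^ (d + 1)))) * l) *
        ((t1:ℝ) ^ (d + 1) * m2 / (s * P.card) + (t1:ℝ) ^ d) := by
  have hlogN : 0 ≤ Real.log N := Real.log_nonneg hN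
  have hΛ1 : 1 ≤ 2 * Real.log N + 1 := by linarith only [hlogN]
  have htR : (1:ℝ) ≤ t1 := by
    rw [ht1]; push_cast; have : (0:ℝ) ≤ t := by (clear * -; positivity)
    linarith only []
  have hl1 : 1 ≤ l := Nat.one_le_two_pow.trans h5
  have hlR : (1:ℝ) ≤ l := by exact_mod_cast hl1
  have hl0 : (0:ℝ) < l := by linarith only [h4, hlogN]
  have hIl : (2:ℝ) ^ I ≤ l := by
    have h5R : (2:ℝ) ^ (I + 1) ≤ l := by exact_mod_cast h5
    have : (2:ℝ) ^ (I + 1) = 2 * 2 ^ I := by ring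
    rw [this] at h5R
    have h2 : (0:ℝ) < 2 ^ I := by positivity
    linarith only [h5R]
  have hn1 : (1:ℝ) ≤ P.card := by exact_mod_cast hPne.card_pos
  have hPN : (P.card : ℝ) ≤ N := by nlinarith only [h7, hn1]
  have hFF1 : 1 ≤ FF := by
    rw [hFF]; exact one_le_mul_of_one_le_of_one_le hK0 (one_le_pow₀ hlR)
  have hFF0 : 0 < FF := by linarith only [hFF1]
  set Λ : ℝ := 2 * Real.log N + 1 with hΛ
  have hs1R : (1:ℝ) ≤ s := by exact_mod_cast hdat.hs1
  have hs0 : (0:ℝ) < s := by linarith only [hs1R]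
  have hq1 : (1:ℝ) ≤ Q.card := by exact_mod_cast hdat.hQne.card_pos
  have hq0 : (0:ℝ) < Q.card := by linarith only [hq1]
  have hQN : (Q.card : ℝ) ≤ N := le_trans (by exact_mod_cast card_le_card hdat.hQP) hPN
  have hw2 : ∀ p ∈ G, 2 ≤ wp p := by
    intro p hp
    by_contra hcon
    have hw1 : wp p = 1 := by have := hdat.hA3 p hp; (clear * - hcon this; omega)
    have hm0 : 0 < 8 * (Q.card : ℝ) * Λ := by (clear * - hΛ1 hq1; positivity)
    have h1 := mass_of_finrank_one J vv (8 * Q.card * Λ) hm0.le hdat.hne hdat.hline (Ap p)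
      (by rw [hdat.hA2 p hp, hw1])
    have h2 := hdat.hA5 p hp
    have h3 := ratio_num3 (d + 1) (wp p) (jp p) s Q.card κ Λ FF hs0 hq0 (by linarith only [hκ1]) hFF1 hdat.hsbig
    have h4 : 8 * Q.card * Λ ≤ FF * (8 * Q.card * Λ) := le_mul_of_one_le_left hm0.le hFF1
    linarith only [h1, h2, h3, h4]
  have hwd : ∀ p ∈ G, wp p ≤ d := by
    intro p hp
    rw [← hdat.hA2 p hp]
    exact (Submodule.finrank_mono (hdat.hA1 p hp)).trans (finrank_hyp p).le
  set GG : ℝ := 1024 * κ * FF ^ (d + 1) * 2 ^ (I + 14) * Λ with hG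
  have hG1 : 1 ≤ GG := by
    have h1 : (1:ℝ) ≤ FF ^ (d + 1) := one_le_pow₀ hFF1
    have h2 : (1:ℝ) ≤ 2 ^ (I + 14) := one_le_pow₀ (by norm_num)
    have h3 : 1 ≤ κ * FF ^ (d + 1) := one_le_mul_of_one_le_of_one_le hκ1 h1
    have h4 : 1 ≤ κ * FF ^ (d + 1) * 2 ^ (I + 14) := one_le_mul_of_one_le_of_one_le h3 h2
    have h5 : 1 ≤ κ * FF ^ (d + 1) * 2 ^ (I + 14) * Λ := one_le_mul_of_one_le_of_one_le h4 hΛ1
    rw [hG]; linarith only [h5]
  set E : ℝ := K' * (l:ℝ) ^ c' * (48 * (l:ℝ)) ^ d with hE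
  have hE0 : 0 ≤ E := by rw [hE]; positivity
  set T : ℝ := 2 * FF * E * GG ^ (d + 1) * ((t1:ℝ) ^ (d + 1) * m2 / ((s:ℝ) * Q.card) + (t1:ℝ) ^ d) with hT
  have hclass : ∀ j w, 2 ≤ w → w ≤ d →
      ((G.filter (fun p => jp p = j ∧ wp p = w)).card : ℝ) * Q.card ≤ T := by
    intro j w hw2' hwd'
    have hZcard := richG hK0 hET P G Q s x t1 l I N κ FF m2 J jp wp Ap hdat hm2 hN h4 hIl hlR h9 hPN hκ1 hFF
      j w hw2' hwd'
    have hfib := fibreG hK' hL1 P G Q s x t t1 l I N κ FF m2 J jp wp Ap hdat ht1 hpin hN h4 h5 h6 hPN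
      h8 hflat j w hw2'
    set Bc := G.filter (fun p => jp p = j ∧ wp p = w) with hBc
    have hcardeq : (Bc.card : ℝ) = ∑ A ∈ Bc.image Ap,
        ((G.filter (fun p => (jp p = j ∧ wp p = w) ∧ Ap p = A)).card : ℝ) := by
      have h3 : Bc.card = ∑ A ∈ Bc.image Ap, (Bc.filter (fun p => Ap p = A)).card :=
        Finset.card_eq_sum_card_fiberwise (fun p hp => mem_image_of_mem Ap hp)
      rw [h3]; push_cast
      apply Finset.sum_congr rfl
      intro A _
      rw [hBc, Finset.filter_filter]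
    calc (Bc.card : ℝ) * Q.card
        = ∑ A ∈ Bc.image Ap,
          ((G.filter (fun p => (jp p = j ∧ wp p = w) ∧ Ap p = A)).card : ℝ) * Q.card := by
          rw [hcardeq, Finset.sum_mul]
      _ ≤ ∑ _A ∈ Bc.image Ap, 2 * 2 ^ j * (E * ((s:ℝ) ^ (w - 1) * (t1:ℝ) ^ (d - (w - 1)))) :=
          Finset.sum_le_sum (fun A _ => hfib A)
      _ = (Bc.image Ap).card * (2 * 2 ^ j * (E * ((s:ℝ) ^ (w - 1) * (t1:ℝ) ^ (d - (w - 1))))) := by
          rw [Finset.sum_const, nsmul_eq_mul]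
      _ ≤ (FF * ((GG * (t1 / s) / 2 ^ j) ^ w * (GG * (m2 / (Q.card * 2 ^ j))) +
          (GG * (t1 / s) / 2 ^ j) ^ (w - 1))) *
          (2 * 2 ^ j * (E * ((s:ℝ) ^ (w - 1) * (t1:ℝ) ^ (d - (w - 1))))) :=
          mul_le_mul_of_nonneg_right hZcard (by (clear * - hE0 htR hl1 hs1R; positivity))
      _ ≤ T := num4 d w j hw2' hwd' s t1 Q.card m2 GG E FF hs0 htR hq0 hm2.le hG1 hE0 hFF0.le
  have hpart : (G.card : ℝ) = ∑ y ∈ (Finset.range l) ×ˢ (Icc 2 d),
      ((G.filter (fun p => jp p = y.1 ∧ wp p = y.2)).card : ℝ) := by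
    have h3 : G.card = ∑ y ∈ (Finset.range l) ×ˢ (Icc 2 d),
        (G.filter (fun p => (jp p, wp p) = y)).card := by
      apply Finset.card_eq_sum_card_fiberwise
      intro p hp
      rw [mem_coe, mem_product, mem_range, mem_Icc]
      exact ⟨level_lt (jp p) l N hN h4 ((hdat.hA4 p hp).trans hQN), hw2 p hp, hwd p hp⟩
    rw [h3]
    push_cast
    apply Finset.sum_congr rfl
    intro y _
    congr 2
    apply Finset.filter_congr
    intro p _
    rw [Prod.ext_iff]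
  have hT0 : 0 ≤ T := by
    rw [hT]
    (clear * - hE0 hG1 hFF0 htR hm2 hs0 hq0; positivity)
  have hBQ : (G.card : ℝ) * Q.card ≤ l * (d * T) := by
    rw [hpart, Finset.sum_mul]
    calc ∑ y ∈ (Finset.range l) ×ˢ (Icc 2 d),
        ((G.filter (fun p => jp p = y.1 ∧ wp p = y.2)).card : ℝ) * Q.card
        ≤ ∑ _y ∈ (Finset.range l) ×ˢ (Icc 2 d), T := by
          apply Finset.sum_le_sum
          intro y hy
          rw [mem_product, mem_Icc] at hy
          exact hclass y.1 y.2 hy.2.1 hy.2.2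
      _ = (l * ((d - 1 : ℕ) : ℝ)) * T := by
          rw [Finset.sum_const, card_product, card_range, Nat.card_Icc, nsmul_eq_mul]
          have : d + 1 - 2 = d - 1 := by (clear * - hd; omega)
          rw [this]
          push_cast
          ring
      _ ≤ (l * (d:ℝ)) * T := by
          apply mul_le_mul_of_nonneg_right _ hT0
          apply mul_le_mul_of_nonneg_left _ hl0.le
          exact_mod_cast Nat.sub_le d 1
      _ = l * (d * T) := by ring
  have hP0 : (0:ℝ) < P.card := by linarith only [hn1]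
  have hTle : T ≤ 2 * FF * E * GG ^ (d + 1) * (l * ((t1:ℝ) ^ (d + 1) * m2 / (s * P.card) + (t1:ℝ) ^ d)) := by
    rw [hT]
    apply mul_le_mul_of_nonneg_left _ (by (clear * - hE0 hG1 hFF0; positivity))
    have e1 : (t1:ℝ) ^ (d + 1) * m2 / ((s:ℝ) * Q.card) ≤ l * ((t1:ℝ) ^ (d + 1) * m2 / (s * P.card)) := by
      rw [mul_div_assoc', div_le_div_iff₀ (by positivity) (by positivity)]
      calc (t1:ℝ) ^ (d + 1) * m2 * (s * P.card) ≤ (t1:ℝ) ^ (d + 1) * m2 * (s * (l * Q.card)) := by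
            apply mul_le_mul_of_nonneg_left _ (by positivity)
            exact mul_le_mul_of_nonneg_left hdat.hPQ hs0.le
        _ = _ := by ring
    have e2 : (t1:ℝ) ^ d ≤ l * (t1:ℝ) ^ d := le_mul_of_one_le_left (by positivity) hlR
    linarith only [e1, e2]
  calc (P.card : ℝ) ^ 2 ≤ (4 * G.card) * (l * Q.card) := by
        rw [sq]; exact mul_le_mul hdat.hPG hdat.hPQ hP0.le (by positivity)
    _ = 4 * l * (G.card * Q.card) := by ring
    _ ≤ 4 * l * (l * (d * T)) := mul_le_mul_of_nonneg_left hBQ (by positivity)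
    _ ≤ 4 * l * (l * (d * (2 * FF * E * GG ^ (d + 1) *
        (l * ((t1:ℝ) ^ (d + 1) * m2 / (s * P.card) + (t1:ℝ) ^ d))))) := by
        apply mul_le_mul_of_nonneg_left _ (by positivity)
        apply mul_le_mul_of_nonneg_left _ (by positivity)
        exact mul_le_mul_of_nonneg_left hTle (by positivity)
    _ = _ := by ring

end Vale.Agent.P054M
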