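import Vale.Agent.P054.MathlibUsed
import Vale.Agent.P054.H449.RM.Key
attribute [-instance] ProperSMul.toContinuousSMul IsTopologicalTorsor.toContinuousSMul IdemSemiring.toCanonicallyOrderedAdd IdemSemiring.toMulLeftMono IdemSemiring.toMulRightMono AddQuantale.instAddLeftMono AddQuantale.instAddRightMono Quantale.instMulLeftMono Quantale.instMulRightMono FiniteDimensional.rclike_to_real IsScalarTower.complexToReal FiniteDimensional.complexToReal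

set_option linter.all false
set_option autoImplicit false

open Finset Vale.Agent.P054K

namespace Vale.Agent.P054M

/-- constants, case of a large `M` -/
theorem numM (d I : ℕ) (hd : 2 ≤ d) (n s x κ Λ t M l : ℝ) (hn : 0 ≤ n) (hs : 1 ≤ s) (hl : 1 ≤ l)
    (hΛ0 : 0 ≤ Λ) (hΛ : Λ ≤ l) (hI : (2:ℝ) ^ I ≤ l) (ht : 1 ≤ t) (hM : 0 ≤ M)
    (hκ : κ = 2 * (5 * l) ^ (d + 1)) (hx : x ≤ 2 ^ (I + 14) * Λ * t / s)
    (hcell : n ≤ 2 ^ 15 * 3 ^ d * l ^ (d + 3) * t * s ^ (d - 1))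
    (h : n < 16384 * κ * M * x) :
    n ^ d ≤ ((2 ^ 15 * 3 ^ d) * (2 ^ 29 * 5 ^ (d + 1)) ^ (d - 1)) *
      l ^ (d + 3 + (d + 3) * (d - 1)) * (t ^ d * M ^ (d - 1)) := by
  have hs0 : 0 < s := by linarith only [hs]
  have hl0 : 0 < l := by linarith only [hl]
  have ht0 : 0 < t := by linarith only [ht]
  have hκ0 : 0 ≤ κ := by rw [hκ]; positivity
  have h1 : n * s ≤ (2 ^ 29 * 5 ^ (d + 1)) * l ^ (d + 3) * (M * t) := by
    have h2 : n ≤ 16384 * κ * M * (2 ^ (I + 14) * Λ * t / s) :=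
      h.le.trans (mul_le_mul_of_nonneg_left hx (by positivity))
    have h3 : n * s ≤ 16384 * κ * M * (2 ^ (I + 14) * Λ * t) := by
      have h4 := mul_le_mul_of_nonneg_right h2 hs0.le
      have h5 : 16384 * κ * M * (2 ^ (I + 14) * Λ * t / s) * s =
          16384 * κ * M * (2 ^ (I + 14) * Λ * t) := by field_simp
      rwa [h5] at h4
    have h6 : (2:ℝ) ^ (I + 14) * Λ ≤ 2 ^ 14 * (l * l) := by
      rw [pow_add]
      calc (2:ℝ) ^ I * 2 ^ 14 * Λ = 2 ^ 14 * (2 ^ I * Λ) := by ring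
        _ ≤ 2 ^ 14 * (l * l) := by
            apply mul_le_mul_of_nonneg_left _ (by positivity)
            exact mul_le_mul hI hΛ hΛ0 (by positivity)
    calc n * s ≤ 16384 * κ * M * (2 ^ (I + 14) * Λ * t) := h3
      _ = (16384 * κ * M * t) * (2 ^ (I + 14) * Λ) := by ring
      _ ≤ (16384 * κ * M * t) * (2 ^ 14 * (l * l)) := mul_le_mul_of_nonneg_left h6 (by positivity)
      _ = (2 ^ 29 * 5 ^ (d + 1)) * l ^ (d + 3) * (M * t) := by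
          rw [hκ, mul_pow 5 l, show d + 3 = d + 1 + 2 by omega, pow_add l (d + 1) 2]
          ring
  obtain ⟨k, rfl⟩ : ∃ k, d = k + 1 := ⟨d - 1, by omega⟩
  simp only [Nat.add_sub_cancel] at *
  have h2 : (n * s) ^ k ≤ ((2 ^ 29 * 5 ^ (k + 1 + 1)) * l ^ (k + 1 + 3) * (M * t)) ^ k :=
    pow_le_pow_left₀ (by positivity) h1 k
  have h3 : n * (n * s) ^ k ≤ (2 ^ 15 * 3 ^ (k + 1) * l ^ (k + 1 + 3) * t * s ^ k) *
      ((2 ^ 29 * 5 ^ (k + 1 + 1)) * l ^ (k + 1 + 3) * (M * t)) ^ k :=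
    mul_le_mul hcell h2 (by positivity) (by positivity)
  have e1 : n * (n * s) ^ k = n ^ (k + 1) * s ^ k := by
    rw [mul_pow, pow_succ]; ring
  have e2 : (2 ^ 15 * 3 ^ (k + 1) * l ^ (k + 1 + 3) * t * s ^ k) *
      ((2 ^ 29 * 5 ^ (k + 1 + 1)) * l ^ (k + 1 + 3) * (M * t)) ^ k =
      (((2 ^ 15 * 3 ^ (k + 1)) * (2 ^ 29 * 5 ^ (k + 1 + 1)) ^ k) *
      l ^ (k + 1 + 3 + (k + 1 + 3) * k) * (t ^ (k + 1) * M ^ k)) * s ^ k := by
    rw [mul_pow (2 ^ 29 * 5 ^ (k + 1 + 1) * l ^ (k + 1 + 3)) (M * t), mul_pow (2 ^ 29 * 5 ^ (k + 1 + 1)) (l ^ (k + 1 + 3)), ← pow_mul l,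
      pow_add l (k + 1 + 3) ((k + 1 + 3) * k), mul_pow M t, pow_succ t k]
    ring
  rw [e1, e2] at h3
  exact le_of_mul_le_mul_right h3 (by positivity)

/-- constants, case of a large `b` -/
theorem numb (d : ℕ) (n s κ Λ t b l : ℝ) (hl : 1 ≤ l) (hs : 0 ≤ s)
    (hΛ0 : 0 ≤ Λ) (hΛ : Λ ≤ l) (ht : 1 ≤ t) (hb : 0 ≤ b)
    (hκ : κ = 2 * (5 * l) ^ (d + 1))
    (hcell : n ≤ 2 ^ 15 * 3 ^ d * l ^ (d + 3) * t * s ^ (d - 1))
    (h : s < 32768 * κ * Λ * b) :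
    n ≤ ((2 ^ 15 * 3 ^ d) * (2 ^ 16 * 5 ^ (d + 1)) ^ (d - 1)) *
      l ^ (d + 3 + (d + 2) * (d - 1)) * (t * b ^ (d - 1)) := by
  have hl0 : 0 < l := by linarith only [hl]
  have ht0 : 0 < t := by linarith only [ht]
  have h1 : s ≤ (2 ^ 16 * 5 ^ (d + 1)) * l ^ (d + 2) * b := by
    refine h.le.trans ?_
    have h2 : 32768 * κ * Λ ≤ 32768 * κ * l :=
      mul_le_mul_of_nonneg_left hΛ (by rw [hκ]; positivity)
    calc 32768 * κ * Λ * b ≤ 32768 * κ * l * b := mul_le_mul_of_nonneg_right h2 hb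
      _ = _ := by
          rw [hκ, mul_pow 5 l, show d + 2 = d + 1 + 1 by omega, pow_succ l (d + 1)]
          ring
  have h2 : s ^ (d - 1) ≤ ((2 ^ 16 * 5 ^ (d + 1)) * l ^ (d + 2) * b) ^ (d - 1) :=
    pow_le_pow_left₀ hs h1 _
  refine hcell.trans ((mul_le_mul_of_nonneg_left h2 (by positivity)).trans (le_of_eq ?_))
  rw [mul_pow (2 ^ 16 * 5 ^ (d + 1) * l ^ (d + 2)) b, mul_pow (2 ^ 16 * 5 ^ (d + 1)) (l ^ (d + 2)), ← pow_mul l,
    pow_add l (d + 3) ((d + 2) * (d - 1))]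
  ring

/-- absorption of constants -/
theorem absorb2 (X K l : ℝ) (Y : ℝ) (y c : ℕ) (hX : 0 ≤ X) (hXK : X ≤ K) (hl : 1 ≤ l) (hY : 0 ≤ Y)
    (hy : y ≤ c) : X * l ^ y * Y ≤ K * l ^ c * Y := by
  have h1 : l ^ y ≤ l ^ c := pow_le_pow_right₀ hl hy
  exact mul_le_mul_of_nonneg_right (mul_le_mul hXK h1 (by positivity) (hX.trans hXK)) hY

/-- the constant of the main case -/
theorem constW (d c0 c' I : ℕ) (l Λ K0 K' : ℝ) (hl : 1 ≤ l) (hΛ0 : 0 ≤ Λ) (hΛ : Λ ≤ l) (hK0 : 1 ≤ K0)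
    (hK' : 1 ≤ K') (hI : (2:ℝ) ^ I ≤ l) :
    (4 * l * (l * (d * (2 * (K0 * l ^ c0) * (K' * l ^ c' * (48 * l) ^ d) *
        (1024 * (2 * (2 * (5 * l) ^ (d + 1))) * (K0 * l ^ c0) ^ (d + 1) * 2 ^ (I + 14) * Λ) ^ (d + 1)))) * l) ≤
      (8 * d * K0 * K' * 48 ^ d * (2 ^ 26 * 5 ^ (d + 1) * K0 ^ (d + 1)) ^ (d + 1)) *
        l ^ (3 + c0 + c' + d + (d + 1 + 2 + c0 * (d + 1)) * (d + 1)) := by
  have hl0 : 0 < l := by linarith only [hl]
  have h1 := constB3 d c0 I l Λ K0 hl hΛ0 hΛ hK0 hI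
  have h2 : 1024 * (2 * (2 * (5 * l) ^ (d + 1))) * (K0 * l ^ c0) ^ (d + 1) * 2 ^ (I + 14) * Λ ≤
      (2 ^ 26 * 5 ^ (d + 1) * K0 ^ (d + 1)) * l ^ (d + 1 + 2 + c0 * (d + 1)) := by
    have h3 : 1024 * (2 * (2 * (5 * l) ^ (d + 1))) * (K0 * l ^ c0) ^ (d + 1) * 2 ^ (I + 14) * Λ =
        2 * (1024 * (2 * (5 * l) ^ (d + 1)) * (K0 * l ^ c0) ^ (d + 1) * 2 ^ (I + 14) * Λ) := by ring
    rw [h3]
    linarith only [h1]
  have h3 := pow_le_pow_left₀ (show 0 ≤ 1024 * (2 * (2 * (5 * l) ^ (d + 1))) * (K0 * l ^ c0) ^ (d + 1) *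
    2 ^ (I + 14) * Λ by positivity) h2 (d + 1)
  calc (4 * l * (l * (d * (2 * (K0 * l ^ c0) * (K' * l ^ c' * (48 * l) ^ d) *
        (1024 * (2 * (2 * (5 * l) ^ (d + 1))) * (K0 * l ^ c0) ^ (d + 1) * 2 ^ (I + 14) * Λ) ^ (d + 1)))) * l)
      ≤ (4 * l * (l * (d * (2 * (K0 * l ^ c0) * (K' * l ^ c' * (48 * l) ^ d) *
        ((2 ^ 26 * 5 ^ (d + 1) * K0 ^ (d + 1)) * l ^ (d + 1 + 2 + c0 * (d + 1))) ^ (d + 1)))) * l) := by
        apply mul_le_mul_of_nonneg_right _ hl0.le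
        apply mul_le_mul_of_nonneg_left _ (by positivity)
        apply mul_le_mul_of_nonneg_left _ (by positivity)
        apply mul_le_mul_of_nonneg_left _ (by positivity)
        exact mul_le_mul_of_nonneg_left h3 (by positivity)
    _ = _ := by
        rw [mul_pow (2 ^ 26 * 5 ^ (d + 1) * K0 ^ (d + 1)) (l ^ (d + 1 + 2 + c0 * (d + 1))), ← pow_mul l,
          mul_pow 48 l d, pow_add l (3 + c0 + c' + d), pow_add l (3 + c0 + c') d, pow_add l (3 + c0) c',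
          pow_add l 3 c0]
        ring

theorem keyRM (d : ℕ) (hd : 2 ≤ d) : ∃ (K : ℝ) (c : ℕ), 1 ≤ K ∧ KeyRM d K c := by
  classical
  obtain ⟨K0, c0, hK0, hET⟩ := et_uniform d
  obtain ⟨K', c', hK', hL1⟩ := L1_all d
  -- constants
  obtain ⟨B1, hB1⟩ : ∃ B1 : ℝ, B1 = 2 ^ 15 * 5 ^ (d + 1) * K0 ^ (d + 2) := ⟨_, rfl⟩
  obtain ⟨b1, hb1⟩ : ∃ b1 : ℕ, b1 = d + 1 + 1 + c0 * (d + 2) := ⟨_, rfl⟩
  obtain ⟨B2, hB2⟩ : ∃ B2 : ℝ, B2 = 2 ^ 15 * 3 ^ d * B1 ^ (d - 1) := ⟨_, rfl⟩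
  obtain ⟨b2, hb2⟩ : ∃ b2 : ℕ, b2 = d + 3 + b1 * (d - 1) := ⟨_, rfl⟩
  obtain ⟨W, hW⟩ : ∃ W : ℝ, W = 8 * d * K0 * K' * 48 ^ d *
    (2 ^ 26 * 5 ^ (d + 1) * K0 ^ (d + 1)) ^ (d + 1) := ⟨_, rfl⟩
  obtain ⟨w0, hw0⟩ : ∃ w0 : ℕ, w0 = 3 + c0 + c' + d + (d + 1 + 2 + c0 * (d + 1)) * (d + 1) := ⟨_, rfl⟩
  obtain ⟨X1, hX1⟩ : ∃ X : ℝ, X = (2 ^ 15 * 3 ^ d) * (2 ^ 29 * 5 ^ (d + 1)) ^ (d - 1) := ⟨_, rfl⟩
  obtain ⟨X2, hX2⟩ : ∃ X : ℝ, X = (2 ^ 15 * 3 ^ d) * (2 ^ 16 * 5 ^ (d + 1)) ^ (d - 1) := ⟨_, rfl⟩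
  obtain ⟨X3, hX3⟩ : ∃ X : ℝ, X = (2 * W) ^ (d - 1) * (2 ^ 15 * 3 ^ d) := ⟨_, rfl⟩
  have hB1p : 0 ≤ B1 := by rw [hB1]; positivity
  have hB2p : 0 ≤ B2 := by rw [hB2]; positivity
  have hWp : 0 ≤ W := by rw [hW]; positivity
  have hX1p : 0 ≤ X1 := by rw [hX1]; positivity
  have hX2p : 0 ≤ X2 := by rw [hX2]; positivity
  have hX3p : 0 ≤ X3 := by rw [hX3]; positivity
  obtain ⟨K, hK⟩ : ∃ K : ℝ, K = 2 ^ 17 + B2 + 2 * W + X1 + X2 + X3 := ⟨_, rfl⟩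
  obtain ⟨c, hc⟩ : ∃ c : ℕ, c = 3 + b2 + w0 + (d + 3 + (d + 3) * (d - 1)) + (d + 3 + (d + 2) * (d - 1)) +
    (w0 * (d - 1) + (d + 3)) := ⟨_, rfl⟩
  refine ⟨K, c, by rw [hK]; linarith only [hB2p, hWp, hX1p, hX2p, hX3p], ?_⟩
  intro P t t1 l I N g M m b ht1 hpin hN h4 h5 h6 h7 h8 h9 hflat hg hM hm hb hmir
  have hlogN : 0 ≤ Real.log N := Real.log_nonneg hN
  have htR : (1:ℝ) ≤ t1 := by
    rw [ht1]; push_cast; have : (0:ℝ) ≤ t := by (clear * -; positivity)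
    linarith only []
  have hl1 : 1 ≤ l := Nat.one_le_two_pow.trans h5
  have hlR : (1:ℝ) ≤ l := by exact_mod_cast hl1
  have hl0 : (0:ℝ) < l := by linarith only [h4, hlogN]
  have hIl : (2:ℝ) ^ I ≤ l := by
    have h5R : (2:ℝ) ^ (I + 1) ≤ l := by exact_mod_cast h5
    have : (2:ℝ) ^ (I + 1) = 2 * 2 ^ I := by ring
    rw [this] at h5R
    have h2 : (0:ℝ) < 2 ^ I := by positivity
    linarith only [h5R]
  have hMR : (1:ℝ) ≤ M := by exact_mod_cast hM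
  have hmR : (1:ℝ) ≤ m := by exact_mod_cast hm
  have hbR : (1:ℝ) ≤ b := by exact_mod_cast hb
  have hn0 : (0:ℝ) ≤ P.card := by (clear * -; positivity)
  by_cases hbig : 2 ^ (2 * I + 17) * (2 * Real.log N + 1) * (t1:ℝ) < P.card
  swap
  · right; left
    push Not at hbig
    have h1 : (2:ℝ) ^ (2 * I + 17) * (2 * Real.log N + 1) ≤ 2 ^ 17 * (l:ℝ) ^ 3 := by
      have e2 : (2:ℝ) ^ (2 * I + 17) = 2 ^ 17 * (2 ^ I) ^ 2 := by rw [← pow_mul]; ring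
      rw [e2]
      have e3 : ((2:ℝ) ^ I) ^ 2 ≤ (l:ℝ) ^ 2 := pow_le_pow_left₀ (by positivity) hIl 2
      calc 2 ^ 17 * ((2:ℝ) ^ I) ^ 2 * (2 * Real.log N + 1) ≤ 2 ^ 17 * (l:ℝ) ^ 2 * l := by
            apply mul_le_mul _ h4 (by (clear * - hlogN; positivity)) (by (clear * - hl1; positivity))
            linarith only [e3]
        _ = 2 ^ 17 * (l:ℝ) ^ 3 := by ring
    have h2 : (P.card : ℝ) ≤ 2 ^ 17 * (l:ℝ) ^ 3 * t1 :=
      hbig.trans (mul_le_mul_of_nonneg_right h1 (by linarith only [htR]))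
    exact h2.trans (absorb2 _ _ _ _ _ _ (by positivity)
      (by rw [hK]; linarith only [hB2p, hWp, hX1p, hX2p, hX3p]) hlR (by linarith only [htR])
      (by rw [hc]; omega))
  by_cases hbig2 : 2 ^ 15 * 3 ^ d * (l:ℝ) ^ (d + 3) * (t1:ℝ) *
      (8192 * (2 * (2 * (5 * (l:ℝ)) ^ (d + 1))) * (2 * Real.log N + 1) * (K0 * (l:ℝ) ^ c0) ^ (d + 2)) ^ (d - 1)
      < P.card
  swap
  · right; left
    push Not at hbig2
    have h1 := constB1 d c0 l (2 * Real.log N + 1) K0 hlR (by linarith only [hlogN]) h4 hK0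
    have h1' : 8192 * (2 * (2 * (5 * (l:ℝ)) ^ (d + 1))) * (2 * Real.log N + 1) * (K0 * (l:ℝ) ^ c0) ^ (d + 2) ≤
        B1 * (l:ℝ) ^ b1 := by
      rw [hB1, hb1]
      have e1 : 8192 * (2 * (2 * (5 * (l:ℝ)) ^ (d + 1))) * (2 * Real.log N + 1) * (K0 * (l:ℝ) ^ c0) ^ (d + 2) =
        2 * (8192 * (2 * (5 * (l:ℝ)) ^ (d + 1)) * (2 * Real.log N + 1) * (K0 * (l:ℝ) ^ c0) ^ (d + 2)) := by ring
      rw [e1]
      have e2 : (2:ℝ) ^ 15 = 2 * 2 ^ 14 := by norm_num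
      rw [e2]
      linarith only [h1]
    have h2 := pow_le_pow_left₀ (by (clear * - hK0 hlogN hl1; positivity)) h1' (d - 1)
    have h3 : (P.card : ℝ) ≤ B2 * (l:ℝ) ^ b2 * t1 := by
      refine hbig2.trans ?_
      calc _ ≤ 2 ^ 15 * 3 ^ d * (l:ℝ) ^ (d + 3) * (t1:ℝ) * (B1 * (l:ℝ) ^ b1) ^ (d - 1) :=
            mul_le_mul_of_nonneg_left h2 (by (clear * - htR hl1; positivity))
        _ = B2 * (l:ℝ) ^ b2 * t1 := by
            rw [hB2, hb2, mul_pow, ← pow_mul, pow_add (l:ℝ) (d + 3)]; ring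
    exact h3.trans (absorb2 _ _ _ _ _ _ hB2p
      (by rw [hK]; linarith only [hB2p, hWp, hX1p, hX2p, hX3p]) hlR (by linarith only [htR])
      (by rw [hc]; omega))
  have hPpos : (0:ℝ) < P.card := lt_of_le_of_lt (by (clear * - hlogN htR; positivity)) hbig
  have hP : P.Nonempty := by rw [← card_pos]; exact_mod_cast hPpos
  have hn1 : (1:ℝ) ≤ P.card := by exact_mod_cast hP.card_pos
  by_cases hgd : ∀ s : ℕ, 16 * (2 * Real.log N + 1) * ((t1:ℝ) + 2) ≤ s →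
      ¬ Gd P P (S2 P) rng s 2
  swap
  · left
    push Not at hgd
    obtain ⟨s, hs, hgd⟩ := hgd
    have hPN : (P.card : ℝ) ≤ N := by nlinarith only [h8, htR, hPpos]
    have hlg := Real.log_le_log (by linarith only [hPpos]) hPN
    refine L2_top (by (clear * - hd; omega)) P (fun p hp => by convert hpin p hp) (2 * Real.log N + 1)
      (by linarith only [hlg]) s ?_ hP hgd g hg
    have : ((t:ℝ) + 1 + 2) = (t1:ℝ) + 2 := by rw [ht1]; push_cast; ring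
    rw [this]; exact hs
  have hκ1 : (1:ℝ) ≤ 2 * (2 * (5 * (l:ℝ)) ^ (d + 1)) := by
    have : (1:ℝ) ≤ (5 * (l:ℝ)) ^ (d + 1) := one_le_pow₀ (by linarith only [h4, hlogN])
    linarith only [this]
  obtain ⟨s, x, hs1, hxup, hcell, hcase⟩ := dataG_of d hd P t1 l I N (by omega)
    (fun p hp => by rw [ht1]; convert hpin p hp) hN h4 h5 h6 h7 hbig (2 * (5 * (l:ℝ)) ^ (d + 1))
    (K0 * (l:ℝ) ^ c0) rfl (one_le_mul_of_one_le_of_one_le hK0 (one_le_pow₀ hlR)) hbig2 hgd M m b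
    (by convert hmir)
  have hs1R : (1:ℝ) ≤ s := by exact_mod_cast hs1
  rcases hcase with h | h | ⟨G, Q, J, jp, wp, Ap, hdat⟩
  · -- large M
    right; right; right; right; left
    have h1 := numM d I hd P.card s x (2 * (5 * (l:ℝ)) ^ (d + 1)) (2 * Real.log N + 1) t1 M l hn0 hs1R
      hlR (by linarith only [hlogN]) h4 hIl htR (by linarith only [hMR]) rfl hxup hcell h
    rw [← hX1] at h1
    exact h1.trans (absorb2 _ _ _ _ _ _ hX1p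
      (by rw [hK]; linarith only [hB2p, hWp, hX1p, hX2p, hX3p]) hlR (by positivity)
      (by rw [hc]; omega))
  · -- large b
    right; right; right; right; right
    have h1 := numb d P.card s (2 * (5 * (l:ℝ)) ^ (d + 1)) (2 * Real.log N + 1) t1 b l hlR
      (by linarith only [hs1R]) (by linarith only [hlogN]) h4 htR (by linarith only [hbR]) rfl hcell h
    rw [← hX2] at h1
    exact h1.trans (absorb2 _ _ _ _ _ _ hX2p
      (by rw [hK]; linarith only [hB2p, hWp, hX1p, hX2p, hX3p]) hlR (by positivity)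
      (by rw [hc]; omega))
  · have h1 := caseG d hd hK0 hET hK' hL1 P G Q s x t t1 l I N (2 * (2 * (5 * (l:ℝ)) ^ (d + 1)))
      (K0 * (l:ℝ) ^ c0) m J jp wp Ap hdat (by linarith only [hmR]) ht1 (fun p hp => by convert hpin p hp)
      hN h4 h5 h6 h7 h8 h9 hflat hP hκ1 rfl
    have h2 := constW d c0 c' I l (2 * Real.log N + 1) K0 K' hlR (by linarith only [hlogN]) h4 hK0 hK' hIl
    rw [← hW, ← hw0] at h2
    have h3 : (P.card : ℝ) ^ 2 ≤ (W * (l:ℝ) ^ w0) *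
        ((t1:ℝ) ^ (d + 1) * m / (s * P.card) + (t1:ℝ) ^ d) :=
      h1.trans (mul_le_mul_of_nonneg_right h2 (by positivity))
    have h4' := elim4 d hd P.card (W * (l:ℝ) ^ w0) (2 ^ 15 * 3 ^ d * (l:ℝ) ^ (d + 3)) t1 s m
      (by linarith only [hn1]) (by positivity) (by positivity) htR hs1R (by linarith only [hmR])
      (by linarith only [hcell]) h3
    rcases h4' with h | h
    · right; right; left
      refine h.trans ?_
      have e1 : 2 * (W * (l:ℝ) ^ w0) * (t1:ℝ) ^ d = (2 * W) * (l:ℝ) ^ w0 * (t1:ℝ) ^ d := by ring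
      rw [e1]
      exact absorb2 _ _ _ _ _ _ (by positivity)
        (by rw [hK]; linarith only [hB2p, hWp, hX1p, hX2p, hX3p]) hlR (by positivity)
        (by rw [hc]; omega)
    · right; right; right; left
      refine h.trans ?_
      have e1 : (2 * (W * (l:ℝ) ^ w0)) ^ (d - 1) * (2 ^ 15 * 3 ^ d * (l:ℝ) ^ (d + 3)) *
          ((t1:ℝ) ^ (d ^ 2) * (m:ℝ) ^ (d - 1)) =
          X3 * (l:ℝ) ^ (w0 * (d - 1) + (d + 3)) * ((t1:ℝ) ^ (d ^ 2) * (m:ℝ) ^ (d - 1)) := by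
        rw [hX3, show 2 * (W * (l:ℝ) ^ w0) = (2 * W) * (l:ℝ) ^ w0 by ring, mul_pow (2 * W),
          ← pow_mul (l:ℝ), pow_add (l:ℝ)]
        ring
      rw [e1]
      exact absorb2 _ _ _ _ _ _ hX3p
        (by rw [hK]; linarith only [hB2p, hWp, hX1p, hX2p, hX3p]) hlR (by positivity)
        (by rw [hc]; omega)

end Vale.Agent.P054M
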